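import Claimed.Agent.R282.S34.Defs
import Claimed.Agent.R282.Defs.Dot

/-!
# Row 282, schedule calculus A1: inner product, reflections, signed permutations

Package BP-S34-A (architect helper49).  All names carry the prefix `sc_`.
Leaf L-SC-W1 = section `Dot`, L-SC-W2 = section `Signed`, L-SC-W3 = section `Group`,
L-SC-W4 = section `Lattice`.  Every statement is elementary (`Finset.sum`, `Equiv.Perm`, `Bool`).
-/

set_option autoImplicit false

namespace Claimed.Agent.R282

variable {n : ℕ}

section Dot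

theorem sc_dot_comm (x y : Vec n) : dot x y = dot y x := by
  exact dot_comm x y

theorem sc_dot_add_left (x y z : Vec n) : dot (x + y) z = dot x z + dot y z := by
  exact dot_add_left x y z

theorem sc_dot_add_right (x y z : Vec n) : dot x (y + z) = dot x y + dot x z := by
  exact dot_add_right x y z

theorem sc_dot_sub_left (x y z : Vec n) : dot (x - y) z = dot x z - dot y z := by
  exact dot_sub_left x y z

theorem sc_dot_sub_right (x y z : Vec n) : dot x (y - z) = dot x y - dot x z := by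
  exact dot_sub_right x y z

theorem sc_dot_smul_left (a : ℝ) (x y : Vec n) : dot (a • x) y = a * dot x y := by
  exact dot_smul_left a x y

theorem sc_dot_smul_right (a : ℝ) (x y : Vec n) : dot x (a • y) = a * dot x y := by
  exact dot_smul_right a x y

theorem sc_dot_neg_left (x y : Vec n) : dot (-x) y = - dot x y := by
  exact dot_neg_left x y

theorem sc_dot_neg_right (x y : Vec n) : dot x (-y) = - dot x y := by
  exact dot_neg_right x y

theorem sc_dot_zero_left (y : Vec n) : dot 0 y = 0 := by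
  exact dot_zero_left y

theorem sc_dot_zero_right (x : Vec n) : dot x 0 = 0 := by
  exact dot_zero_right x

theorem sc_dot_list_sum_right (x : Vec n) (l : List (Vec n)) :
    dot x l.sum = (l.map (dot x)).sum := by
  induction l with
  | nil => simp [dot_zero_right]
  | cons a l ih => simp [dot_add_right, ih]

theorem sc_dot_self_nonneg (x : Vec n) : 0 ≤ dot x x := by
  exact dot_self_nonneg x

theorem sc_dot_self_eq_zero (x : Vec n) : dot x x = 0 ↔ x = 0 := by
  exact dot_self_eq_zero

theorem sc_dot_single (x : Vec n) (i : Fin n) : dot x (Pi.single i 1) = x i := by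
  simp [dot, Pi.single_apply]

theorem sc_sgnB_mul_self (b : Bool) : sgnB b * sgnB b = 1 := by
  cases b <;> simp [sgnB]

theorem sc_sgnB_cases (b : Bool) : sgnB b = 1 ∨ sgnB b = -1 := by
  cases b <;> simp [sgnB]

theorem sc_sgnB_xor (a b : Bool) : sgnB (xor a b) = sgnB a * sgnB b := by
  cases a <;> cases b <;> simp [sgnB]

/-- pairing with a root -/
theorem sc_dot_vec (x : Vec n) (β : RootD n) :
    dot x β.vec = sgnB β.si * x β.i + sgnB β.sj * x β.j := by
  simp only [dot, RootD.vec, mul_add, Finset.sum_add_distrib, mul_ite, mul_zero, Finset.sum_ite_eq',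
    Finset.mem_univ, if_true]
  ring

theorem scw_vec_i (β : RootD n) : β.vec β.i = sgnB β.si := by
  simp [RootD.vec, β.ne]

theorem scw_vec_j (β : RootD n) : β.vec β.j = sgnB β.sj := by
  simp [RootD.vec, β.ne.symm]

theorem scw_vec_other (β : RootD n) {k : Fin n} (hi : k ≠ β.i) (hj : k ≠ β.j) : β.vec k = 0 := by
  simp [RootD.vec, hi, hj]

theorem sc_vec_dot_self (β : RootD n) : dot β.vec β.vec = 2 := by
  rw [sc_dot_vec, scw_vec_i, scw_vec_j, sc_sgnB_mul_self, sc_sgnB_mul_self]
  norm_num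

theorem scw_vec_int (β : RootD n) (k : Fin n) : ∃ z : ℤ, β.vec k = z ∧ -1 ≤ z ∧ z ≤ 1 := by
  by_cases hi : k = β.i
  · subst hi
    rw [scw_vec_i]
    rcases sc_sgnB_cases β.si with h | h
    · exact ⟨1, by simp [h], by norm_num, le_rfl⟩
    · exact ⟨-1, by simp [h], le_rfl, by norm_num⟩
  · by_cases hj : k = β.j
    · subst hj
      rw [scw_vec_j]
      rcases sc_sgnB_cases β.sj with h | h
      · exact ⟨1, by simp [h], by norm_num, le_rfl⟩
      · exact ⟨-1, by simp [h], le_rfl, by norm_num⟩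
    · exact ⟨0, by simp [scw_vec_other β hi hj], by norm_num, by norm_num⟩

/-- two roots pair to `0, ±1, ±2` -/
theorem sc_vec_dot_vec_int (β γ : RootD n) :
    ∃ z : ℤ, dot β.vec γ.vec = z ∧ -2 ≤ z ∧ z ≤ 2 := by
  rw [sc_dot_vec]
  obtain ⟨a, ha, ha1, ha2⟩ := scw_vec_int β γ.i
  obtain ⟨b, hb, hb1, hb2⟩ := scw_vec_int β γ.j
  rw [ha, hb]
  rcases sc_sgnB_cases γ.si with h | h <;> rcases sc_sgnB_cases γ.sj with h' | h' <;> rw [h, h']
  · exact ⟨a + b, by push_cast; ring, by omega, by omega⟩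
  · exact ⟨a - b, by push_cast; ring, by omega, by omega⟩
  · exact ⟨-a + b, by push_cast; ring, by omega, by omega⟩
  · exact ⟨-a - b, by push_cast; ring, by omega, by omega⟩

/-- pairing `±2` only for `γ = ± β` -/
theorem sc_vec_dot_vec_two (β γ : RootD n) (h : dot β.vec γ.vec = 2) : γ.vec = β.vec := by
  have h0 : dot (γ.vec - β.vec) (γ.vec - β.vec) = 0 := by
    rw [dot_sub_left, dot_sub_right, dot_sub_right, sc_vec_dot_self, sc_vec_dot_self, h, dot_comm γ.vec, h]
    norm_num
  exact sub_eq_zero.1 (dot_self_eq_zero.1 h0)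

theorem sc_vec_ne_zero (β : RootD n) : β.vec ≠ 0 := by
  intro h
  have := sc_vec_dot_self β
  rw [h, dot_zero_left] at this
  norm_num at this

theorem sc_refl_isLinear (β : RootD n) : IsLinearMap ℝ (refl β) := by
  constructor
  · intro x y
    simp only [refl, dot_add_left, add_smul]
    abel
  · intro c x
    simp only [refl, dot_smul_left, smul_sub, smul_smul]

theorem sc_refl_refl (β : RootD n) (x : Vec n) : refl β (refl β x) = x := by
  simp only [refl, dot_sub_left, dot_smul_left, sc_vec_dot_self]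
  have : dot x β.vec - dot x β.vec * 2 = - dot x β.vec := by ring
  rw [this, neg_smul]
  abel

theorem sc_dot_refl_refl (β : RootD n) (x y : Vec n) : dot (refl β x) (refl β y) = dot x y := by
  simp only [refl, dot_sub_left, dot_sub_right, dot_smul_left, dot_smul_right, sc_vec_dot_self]
  rw [dot_comm β.vec y]
  ring

theorem sc_dot_refl_left (β : RootD n) (x y : Vec n) : dot (refl β x) y = dot x (refl β y) := by
  simp only [refl, dot_sub_left, dot_sub_right, dot_smul_left, dot_smul_right]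
  rw [dot_comm β.vec y]
  ring

theorem sc_refl_self (β : RootD n) : refl β β.vec = - β.vec := by
  rw [refl, sc_vec_dot_self, two_smul]
  abel

theorem sc_refl_of_orth (β : RootD n) (x : Vec n) (h : dot x β.vec = 0) : refl β x = x := by
  rw [refl, h, zero_smul, sub_zero]

/-- orthogonal reflections commute -/
theorem sc_refl_comm (β γ : RootD n) (h : dot β.vec γ.vec = 0) (x : Vec n) :
    refl β (refl γ x) = refl γ (refl β x) := by
  have h' : dot γ.vec β.vec = 0 := by rw [dot_comm, h]
  simp only [refl, dot_sub_left, dot_smul_left, h, h', mul_zero, sub_zero]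
  abel

end Dot


section Signed

/-- all signed permutations (the Weyl group of `B_n`); they permute the roots of `D_n` -/
structure WB (n : ℕ) where
  σ : Equiv.Perm (Fin n)
  s : Fin n → Bool

/-- action on vectors, same formula as `WD.act` -/
def WB.act (g : WB n) (x : Vec n) : Vec n := fun i => sgnB (g.s i) * x (g.σ.symm i)

/-- forget evenness -/
def WD.toWB (w : WD n) : WB n := ⟨w.σ, w.s⟩

/-- action on roots -/
def RootD.map (g : WB n) (β : RootD n) : RootD n :=
  ⟨g.σ β.i, g.σ β.j, g.σ.injective.ne β.ne, xor (g.s (g.σ β.i)) β.si, xor (g.s (g.σ β.j)) β.sj⟩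

/-- the reflection in a root as a signed permutation -/
def WB.ofRoot (β : RootD n) : WB n :=
  ⟨Equiv.swap β.i β.j, fun k => if k = β.i ∨ k = β.j then (β.si == β.sj) else false⟩

/-- change of signs as a signed permutation -/
def WB.ofFlip (ε : Fin n → Bool) : WB n := ⟨1, ε⟩

/-- `s_β γ` as a root -/
def reflRoot (β γ : RootD n) : RootD n := γ.map (WB.ofRoot β)

/-- `- β` as a root -/
def RootD.opp (β : RootD n) : RootD n := ⟨β.i, β.j, β.ne, !β.si, !β.sj⟩

theorem sc_toWB_act (w : WD n) (x : Vec n) : w.toWB.act x = w.act x := rfl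

theorem sc_WB_act_isLinear (g : WB n) : IsLinearMap ℝ g.act := by
  constructor
  · intro x y
    funext i
    simp only [WB.act, Pi.add_apply, mul_add]
  · intro c x
    funext i
    simp only [WB.act, Pi.smul_apply, smul_eq_mul]
    ring

theorem sc_WD_act_isLinear (w : WD n) : IsLinearMap ℝ w.act := by
  exact sc_WB_act_isLinear w.toWB

theorem sc_dot_WB_act (g : WB n) (x y : Vec n) : dot (g.act x) (g.act y) = dot x y := by
  simp only [dot, WB.act]
  rw [← Equiv.sum_comp g.σ.symm (fun i => x i * y i)]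
  refine Finset.sum_congr rfl fun i _ => ?_
  have := sc_sgnB_mul_self (g.s i)
  calc sgnB (g.s i) * x (g.σ.symm i) * (sgnB (g.s i) * y (g.σ.symm i))
      = (sgnB (g.s i) * sgnB (g.s i)) * (x (g.σ.symm i) * y (g.σ.symm i)) := by ring
    _ = _ := by rw [this, one_mul]

theorem sc_dot_WD_act (w : WD n) (x y : Vec n) : dot (w.act x) (w.act y) = dot x y := by
  exact sc_dot_WB_act w.toWB x y

theorem sc_map_vec (g : WB n) (β : RootD n) : (β.map g).vec = g.act β.vec := by
  funext k
  simp only [RootD.vec, RootD.map, WB.act, Equiv.symm_apply_eq, sc_sgnB_xor, mul_add, mul_ite, mul_zero]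
  congr 1
  · by_cases h : k = g.σ β.i
    · subst h; simp
    · simp [h]
  · by_cases h : k = g.σ β.j
    · subst h; simp
    · simp [h]

theorem sc_ofRoot_act (β : RootD n) (x : Vec n) : (WB.ofRoot β).act x = refl β x := by
  funext k
  simp only [WB.act, WB.ofRoot, refl, Pi.sub_apply, Pi.smul_apply, smul_eq_mul, sc_dot_vec, Equiv.symm_swap]
  by_cases hi : k = β.i
  · subst hi
    rw [scw_vec_i, Equiv.swap_apply_left]
    simp only [true_or, if_true]
    cases β.si <;> cases β.sj <;> simp [sgnB]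
  · by_cases hj : k = β.j
    · subst hj
      rw [scw_vec_j, Equiv.swap_apply_right]
      simp only [or_true, if_true]
      cases β.si <;> cases β.sj <;> simp [sgnB]
    · rw [scw_vec_other β hi hj, Equiv.swap_apply_of_ne_of_ne hi hj]
      simp [hi, hj, sgnB]

theorem sc_ofFlip_act (ε : Fin n → Bool) (x : Vec n) : (WB.ofFlip ε).act x = flipV ε x := by
  rfl

theorem sc_reflRoot_vec (β γ : RootD n) : (reflRoot β γ).vec = refl β γ.vec := by
  rw [reflRoot, sc_map_vec, sc_ofRoot_act]

theorem sc_neg_vec (β : RootD n) : β.opp.vec = - β.vec := by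
  funext k
  have hn : ∀ b : Bool, sgnB (!b) = - sgnB b := fun b => by cases b <;> simp [sgnB]
  simp only [RootD.vec, RootD.opp, Pi.neg_apply, hn]
  split_ifs <;> ring

/-- conjugation of a reflection -/
theorem sc_refl_map (g : WB n) (β : RootD n) (x : Vec n) :
    refl (β.map g) (g.act x) = g.act (refl β x) := by
  have hl := sc_WB_act_isLinear g
  rw [refl, refl, sc_map_vec, sc_dot_WB_act, sub_eq_add_neg, sub_eq_add_neg, hl.map_add, ← neg_smul, ← neg_smul,
    hl.map_smul]

/-- a root is determined by its vector up to the order of its two axes -/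
theorem sc_refl_congr (β γ : RootD n) (h : β.vec = γ.vec) (x : Vec n) : refl β x = refl γ x := by
  rw [refl, refl, h]

theorem sc_finite_RootD : Finite (RootD n) := by
  refine Finite.of_injective (fun β : RootD n => (β.i, β.j, β.si, β.sj)) ?_
  intro β γ h
  cases β; cases γ
  simp only [Prod.mk.injEq] at h
  obtain ⟨h1, h2, h3, h4⟩ := h
  subst h1 h2 h3 h4
  rfl

theorem sc_finite_WD : Finite (WD n) := by
  refine Finite.of_injective (fun w : WD n => (w.σ, w.s)) ?_
  intro β γ h
  cases β; cases γ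
  simp only [Prod.mk.injEq] at h
  obtain ⟨h1, h2⟩ := h
  subst h1 h2
  rfl

theorem sc_finite_WB : Finite (WB n) := by
  refine Finite.of_injective (fun w : WB n => (w.σ, w.s)) ?_
  intro β γ h
  cases β; cases γ
  simp only [Prod.mk.injEq] at h
  obtain ⟨h1, h2⟩ := h
  subst h1 h2
  rfl

end Signed


section Group

/-- product of signed permutations -/
def scwMul (g h : WB n) : WB n := ⟨g.σ * h.σ, fun i => xor (g.s i) (h.s (g.σ.symm i))⟩

/-- inverse of a signed permutation -/
def scwInv (g : WB n) : WB n := ⟨g.σ⁻¹, fun i => g.s (g.σ i)⟩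

/-- the sign character -/
def scwChi (s : Fin n → Bool) : ℝ := ∏ i, sgnB (s i)

theorem scw_mul_act (g h : WB n) (x : Vec n) : (scwMul g h).act x = g.act (h.act x) := by
  funext i
  simp only [scwMul, WB.act, sc_sgnB_xor, Equiv.Perm.mul_def, Equiv.symm_trans_apply]
  ring

theorem scw_inv_act_left (g : WB n) (x : Vec n) : (scwInv g).act (g.act x) = x := by
  funext i
  simp only [scwInv, WB.act, Equiv.Perm.inv_def, Equiv.symm_symm, Equiv.symm_apply_apply]
  rw [← mul_assoc, sc_sgnB_mul_self, one_mul]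

theorem scw_inv_act_right (g : WB n) (x : Vec n) : g.act ((scwInv g).act x) = x := by
  funext i
  simp only [scwInv, WB.act, Equiv.Perm.inv_def, Equiv.symm_symm, Equiv.apply_symm_apply]
  rw [← mul_assoc, sc_sgnB_mul_self, one_mul]

theorem scw_chi_eq (s : Fin n → Bool) : scwChi s = (-1) ^ (Finset.univ.filter fun i => s i = true).card := by
  simp only [scwChi, sgnB]
  rw [Finset.prod_ite]
  simp

theorem scw_even_iff (s : Fin n → Bool) : Even (Finset.univ.filter fun i => s i = true).card ↔ scwChi s = 1 := by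
  rw [scw_chi_eq, neg_one_pow_eq_one_iff_even (by norm_num)]

theorem scw_chi_mul (g h : WB n) : scwChi (scwMul g h).s = scwChi g.s * scwChi h.s := by
  simp only [scwChi, scwMul, sc_sgnB_xor, Finset.prod_mul_distrib]
  congr 1
  exact Equiv.prod_comp g.σ.symm (fun i => sgnB (h.s i))

theorem scw_chi_inv (g : WB n) : scwChi (scwInv g).s = scwChi g.s := by
  simp only [scwChi, scwInv]
  exact Equiv.prod_comp g.σ (fun i => sgnB (g.s i))

theorem scw_chi_ofRoot (β : RootD n) : scwChi (WB.ofRoot β).s = 1 := by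
  have h : ∀ k : Fin n, sgnB ((WB.ofRoot β).s k)
      = (if k = β.i then sgnB (β.si == β.sj) else 1) * (if k = β.j then sgnB (β.si == β.sj) else 1) := by
    intro k
    simp only [WB.ofRoot]
    by_cases hi : k = β.i
    · have hj : k ≠ β.j := fun hj => β.ne (hi.symm.trans hj)
      simp [hi, β.ne]
    · by_cases hj : k = β.j
      · simp [hj, β.ne.symm]
      · simp [hi, hj, sgnB]
  simp only [scwChi, h, Finset.prod_mul_distrib, Finset.prod_ite_eq', Finset.mem_univ, if_true, sc_sgnB_mul_self]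

theorem scw_chi_mul_self (s : Fin n → Bool) : scwChi s * scwChi s = 1 := by
  simp only [scwChi, ← Finset.prod_mul_distrib, sc_sgnB_mul_self, Finset.prod_const_one]

/-- a signed permutation with trivial character is even -/
def scwOfWB (g : WB n) (h : scwChi g.s = 1) : WD n := ⟨g.σ, g.s, (scw_even_iff _).2 h⟩

theorem scw_ofWB_act (g : WB n) (h : scwChi g.s = 1) (x : Vec n) : (scwOfWB g h).act x = g.act x := rfl

theorem scw_chi_WD (w : WD n) : scwChi w.toWB.s = 1 := (scw_even_iff _).1 w.even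

/-- the action determines the signs -/
theorem scw_s_eq_of_act {g h : WB n} (e : ∀ x, g.act x = h.act x) : g.s = h.s := by
  funext i
  have := congrFun (e (fun _ => 1)) i
  simp only [WB.act, mul_one] at this
  revert this
  cases g.s i <;> cases h.s i <;> simp [sgnB] <;> norm_num

theorem sc_WB_one : ∃ g : WB n, ∀ x, g.act x = x := by
  refine ⟨⟨1, fun _ => false⟩, fun x => ?_⟩
  funext i
  simp only [WB.act, sgnB]
  simp
  rfl

theorem sc_WB_mul (g h : WB n) : ∃ k : WB n, ∀ x, k.act x = g.act (h.act x) := by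
  exact ⟨scwMul g h, scw_mul_act g h⟩

theorem sc_WB_inv (g : WB n) :
    ∃ k : WB n, (∀ x, k.act (g.act x) = x) ∧ ∀ x, g.act (k.act x) = x := by
  exact ⟨scwInv g, scw_inv_act_left g, scw_inv_act_right g⟩

theorem sc_WD_one : ∃ w : WD n, ∀ x, w.act x = x := by
  refine ⟨⟨1, fun _ => false, by simp⟩, fun x => ?_⟩
  funext i
  simp only [WD.act, sgnB]
  simp
  rfl

theorem sc_WD_mul (u v : WD n) : ∃ w : WD n, ∀ x, w.act x = u.act (v.act x) := by
  refine ⟨scwOfWB (scwMul u.toWB v.toWB) ?_, fun x => scw_mul_act u.toWB v.toWB x⟩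
  rw [scw_chi_mul, scw_chi_WD, scw_chi_WD, one_mul]

theorem sc_WD_inv (u : WD n) :
    ∃ w : WD n, (∀ x, w.act (u.act x) = x) ∧ ∀ x, u.act (w.act x) = x := by
  refine ⟨scwOfWB (scwInv u.toWB) ?_, scw_inv_act_left u.toWB, scw_inv_act_right u.toWB⟩
  rw [scw_chi_inv, scw_chi_WD]

theorem sc_WD_refl (β : RootD n) : ∃ w : WD n, ∀ x, w.act x = refl β x := by
  exact ⟨scwOfWB (WB.ofRoot β) (scw_chi_ofRoot β), sc_ofRoot_act β⟩

/-- conjugation of an even signed permutation by an arbitrary one is even -/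
theorem sc_WD_conj (g k : WB n) (hk : ∀ x, k.act (g.act x) = x) (u : WD n) :
    ∃ w : WD n, ∀ x, w.act x = g.act (u.act (k.act x)) := by
  have hks : k.s = (scwInv g).s := by
    apply scw_s_eq_of_act
    intro x
    have h1 := hk ((scwInv g).act x)
    rw [scw_inv_act_right] at h1
    exact h1
  refine ⟨scwOfWB (scwMul g (scwMul u.toWB k)) ?_, fun x => ?_⟩
  · rw [scw_chi_mul, scw_chi_mul, scw_chi_WD, hks, scw_chi_inv, one_mul, scw_chi_mul_self]
  · rw [scw_ofWB_act, scw_mul_act, scw_mul_act]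
    rfl

/-- unsigned elements are closed under products and inverses -/
theorem sc_WA_mul (u v : WD n) (hu : Ty.A.IsW u) (hv : Ty.A.IsW v) :
    ∃ w : WD n, Ty.A.IsW w ∧ ∀ x, w.act x = u.act (v.act x) := by
  refine ⟨scwOfWB (scwMul u.toWB v.toWB) ?_, ?_, fun x => scw_mul_act u.toWB v.toWB x⟩
  · rw [scw_chi_mul, scw_chi_WD, scw_chi_WD, one_mul]
  · intro i
    show xor (u.s i) (v.s (u.σ.symm i)) = false
    rw [hu i, hv _]
    rfl

theorem sc_WA_inv (u : WD n) (hu : Ty.A.IsW u) :
    ∃ w : WD n, Ty.A.IsW w ∧ (∀ x, w.act (u.act x) = x) ∧ ∀ x, u.act (w.act x) = x := by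
  refine ⟨scwOfWB (scwInv u.toWB) ?_, ?_, scw_inv_act_left u.toWB, scw_inv_act_right u.toWB⟩
  · rw [scw_chi_inv, scw_chi_WD]
  · intro i
    exact hu _

theorem sc_WA_refl (β : RootD n) (hβ : β.IsPerm) :
    ∃ w : WD n, Ty.A.IsW w ∧ ∀ x, w.act x = refl β x := by
  refine ⟨scwOfWB (WB.ofRoot β) (scw_chi_ofRoot β), ?_, sc_ofRoot_act β⟩
  intro k
  show (if k = β.i ∨ k = β.j then (β.si == β.sj) else false) = false
  have : (β.si == β.sj) = false := by
    unfold RootD.IsPerm at hβ
    simpa using hβ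
  rw [this]
  simp

/-- a frame: the action of a Weyl group element -/
def IsFrame (f : Vec n → Vec n) : Prop := ∃ w : WD n, f = w.act

theorem sc_isFrame_refl (f : Vec n → Vec n) (hf : IsFrame f) (β : RootD n) :
    IsFrame (fun x => refl β (f x)) := by
  obtain ⟨w, rfl⟩ := hf
  obtain ⟨r, hr⟩ := sc_WD_refl β
  obtain ⟨m, hm⟩ := sc_WD_mul r w
  refine ⟨m, ?_⟩
  funext x
  rw [hm, hr]

/-- pull a root back through a frame -/
theorem sc_frame_root (f : Vec n → Vec n) (hf : IsFrame f) (β : RootD n) :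
    ∃ γ : RootD n, ∀ x, dot β.vec (f x) = dot γ.vec x := by
  obtain ⟨w, rfl⟩ := hf
  refine ⟨β.map (scwInv w.toWB), fun x => ?_⟩
  rw [sc_map_vec, ← sc_dot_WB_act w.toWB ((scwInv w.toWB).act β.vec) x, scw_inv_act_right]
  rfl

theorem sc_isFrame_linear (f : Vec n → Vec n) (hf : IsFrame f) : IsLinearMap ℝ f := by
  obtain ⟨w, rfl⟩ := hf
  exact sc_WD_act_isLinear w

end Group


section Lattice

theorem sc_isWtD_WB_act (g : WB n) (x : Vec n) (hx : IsWtD x) : IsWtD (g.act x) := by
  rcases hx with h | h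
  · left
    intro i
    obtain ⟨z, hz⟩ := h (g.σ.symm i)
    rcases sc_sgnB_cases (g.s i) with hs | hs
    · exact ⟨z, by simp [WB.act, hs, hz]⟩
    · exact ⟨-z, by simp [WB.act, hs, hz]⟩
  · right
    intro i
    obtain ⟨z, hz⟩ := h (g.σ.symm i)
    rcases sc_sgnB_cases (g.s i) with hs | hs
    · exact ⟨z, by simp [WB.act, hs, hz]⟩
    · exact ⟨-z - 1, by simp only [WB.act, hs, hz]; push_cast; ring⟩

theorem sc_isWtD_act (w : WD n) (x : Vec n) (hx : IsWtD x) : IsWtD (w.act x) := by
  exact sc_isWtD_WB_act w.toWB x hx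

/-- the coordinate sum after a signed permutation -/
theorem scw_sum_act (g : WB n) (x : Vec n) :
    ∑ i, g.act x i = ∑ i, x i - 2 * ∑ i ∈ Finset.univ.filter (fun i => g.s i = true), x (g.σ.symm i) := by
  rw [← Equiv.sum_comp g.σ.symm x, Finset.sum_filter, Finset.mul_sum, ← Finset.sum_sub_distrib]
  refine Finset.sum_congr rfl fun i _ => ?_
  simp only [WB.act, sgnB]
  split_ifs <;> ring

theorem scw_sum_act_WD (w : WD n) (x : Vec n) :
    ∑ i, w.act x i = ∑ i, x i - 2 * ∑ i ∈ Finset.univ.filter (fun i => w.s i = true), x (w.σ.symm i) :=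
  scw_sum_act w.toWB x

theorem scw_sum_int {ι : Type*} (T : Finset ι) (y : ι → ℝ) (h : ∀ i, ∃ z : ℤ, y i = z) : ∃ z : ℤ, ∑ i ∈ T, y i = z := by
  choose z hz using h
  exact ⟨∑ i ∈ T, z i, by push_cast; exact Finset.sum_congr rfl fun i _ => hz i⟩

/-- `W` acts trivially on weights modulo the root lattice -/
theorem sc_act_sub_mem_Q (w : WD n) (x : Vec n) (hx : IsWtD x) : InQD (w.act x - x) := by
  constructor
  · intro i
    rcases hx with h | h
    · obtain ⟨z, hz⟩ := h (w.σ.symm i)
      obtain ⟨z', hz'⟩ := h i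
      rcases sc_sgnB_cases (w.s i) with hs | hs
      · exact ⟨z - z', by simp [WD.act, hs, hz, hz']⟩
      · exact ⟨-z - z', by simp [WD.act, hs, hz, hz']⟩
    · obtain ⟨z, hz⟩ := h (w.σ.symm i)
      obtain ⟨z', hz'⟩ := h i
      rcases sc_sgnB_cases (w.s i) with hs | hs
      · exact ⟨z - z', by simp [WD.act, hs, hz, hz']⟩
      · exact ⟨-z - z' - 1, by simp only [Pi.sub_apply, WD.act, hs, hz, hz']; push_cast; ring⟩
  · have h1 : ∑ i, (w.act x - x) i
        = - 2 * ∑ i ∈ Finset.univ.filter (fun i => w.s i = true), x (w.σ.symm i) := by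
      simp only [Pi.sub_apply, Finset.sum_sub_distrib]
      rw [scw_sum_act_WD]
      ring
    rw [h1]
    rcases hx with h | h
    · obtain ⟨z, hz⟩ := scw_sum_int (Finset.univ.filter (fun i => w.s i = true)) (fun i => x (w.σ.symm i))
        (fun i => h _)
      exact ⟨-z, by rw [hz]; push_cast; ring⟩
    · obtain ⟨z, hz⟩ := scw_sum_int (Finset.univ.filter (fun i => w.s i = true))
        (fun i => x (w.σ.symm i) - 1 / 2) (fun i => by
          obtain ⟨z, hz⟩ := h (w.σ.symm i)
          exact ⟨z, by rw [hz]; ring⟩)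
      obtain ⟨m, hm⟩ := w.even
      rw [Finset.sum_sub_distrib, Finset.sum_const, hm] at hz
      refine ⟨-(z + m), ?_⟩
      have : ∑ i ∈ Finset.univ.filter (fun i => w.s i = true), x (w.σ.symm i) = z + m := by
        have e : ((m + m : ℕ) • (1 / 2 : ℝ)) = m := by
          rw [nsmul_eq_mul]; push_cast; ring
        rw [e] at hz
        linarith
      rw [this]
      push_cast
      ring

theorem sc_inQD_add (x y : Vec n) (hx : InQD x) (hy : InQD y) : InQD (x + y) := by
  obtain ⟨hx1, a, ha⟩ := hx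
  obtain ⟨hy1, b, hb⟩ := hy
  refine ⟨fun i => ?_, a + b, ?_⟩
  · obtain ⟨z, hz⟩ := hx1 i
    obtain ⟨z', hz'⟩ := hy1 i
    exact ⟨z + z', by simp [hz, hz']⟩
  · simp only [Pi.add_apply, Finset.sum_add_distrib, ha, hb]
    push_cast
    ring

theorem sc_inQD_neg (x : Vec n) (hx : InQD x) : InQD (-x) := by
  obtain ⟨hx1, a, ha⟩ := hx
  refine ⟨fun i => ?_, -a, ?_⟩
  · obtain ⟨z, hz⟩ := hx1 i
    exact ⟨-z, by simp [hz]⟩
  · simp only [Pi.neg_apply, Finset.sum_neg_distrib, ha]
    push_cast
    ring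

theorem sc_inQD_sub (x y : Vec n) (hx : InQD x) (hy : InQD y) : InQD (x - y) := by
  rw [sub_eq_add_neg]
  exact sc_inQD_add x (-y) hx (sc_inQD_neg y hy)

theorem sc_inQD_vec (β : RootD n) : InQD β.vec := by
  refine ⟨fun i => ?_, ?_⟩
  · obtain ⟨z, hz, _⟩ := scw_vec_int β i
    exact ⟨z, hz⟩
  · have : ∑ k, β.vec k = sgnB β.si + sgnB β.sj := by
      simp [RootD.vec, Finset.sum_add_distrib]
    rw [this]
    rcases sc_sgnB_cases β.si with h | h <;> rcases sc_sgnB_cases β.sj with h' | h' <;> rw [h, h']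
    · exact ⟨1, by norm_num⟩
    · exact ⟨0, by norm_num⟩
    · exact ⟨0, by norm_num⟩
    · exact ⟨-1, by norm_num⟩

theorem sc_inQD_zsmul (z : ℤ) (x : Vec n) (hx : InQD x) : InQD ((z : ℝ) • x) := by
  obtain ⟨hx1, a, ha⟩ := hx
  refine ⟨fun i => ?_, z * a, ?_⟩
  · obtain ⟨y, hy⟩ := hx1 i
    exact ⟨z * y, by simp [hy]⟩
  · simp only [Pi.smul_apply, smul_eq_mul, ← Finset.mul_sum, ha]
    push_cast
    ring

/-- weights have integral root pairings -/
theorem sc_wt_dot_root (x : Vec n) (hx : IsWtD x) (β : RootD n) : ∃ z : ℤ, dot x β.vec = z := by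
  rw [sc_dot_vec]
  rcases hx with h | h
  · obtain ⟨a, ha⟩ := h β.i
    obtain ⟨b, hb⟩ := h β.j
    rw [ha, hb]
    rcases sc_sgnB_cases β.si with h | h <;> rcases sc_sgnB_cases β.sj with h' | h' <;> rw [h, h']
    · exact ⟨a + b, by push_cast; ring⟩
    · exact ⟨a - b, by push_cast; ring⟩
    · exact ⟨-a + b, by push_cast; ring⟩
    · exact ⟨-a - b, by push_cast; ring⟩
  · obtain ⟨a, ha⟩ := h β.i
    obtain ⟨b, hb⟩ := h β.j
    rw [ha, hb]
    rcases sc_sgnB_cases β.si with h | h <;> rcases sc_sgnB_cases β.sj with h' | h' <;> rw [h, h']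
    · exact ⟨a + b + 1, by push_cast; ring⟩
    · exact ⟨a - b, by push_cast; ring⟩
    · exact ⟨-a + b, by push_cast; ring⟩
    · exact ⟨-a - b - 1, by push_cast; ring⟩

theorem sc_inQD_act (w : WD n) (x : Vec n) (hx : InQD x) : InQD (w.act x) := by
  obtain ⟨hx1, a, ha⟩ := hx
  refine ⟨fun i => ?_, ?_⟩
  · obtain ⟨z, hz⟩ := hx1 (w.σ.symm i)
    rcases sc_sgnB_cases (w.s i) with hs | hs
    · exact ⟨z, by simp [WD.act, hs, hz]⟩
    · exact ⟨-z, by simp [WD.act, hs, hz]⟩
  · obtain ⟨z, hz⟩ := scw_sum_int (Finset.univ.filter (fun i => w.s i = true)) (fun i => x (w.σ.symm i))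
      (fun i => hx1 _)
    refine ⟨a - z, ?_⟩
    rw [scw_sum_act_WD, ha, hz]
    push_cast
    ring

end Lattice

end Claimed.Agent.R282
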