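import Claimed.Agent.R282.Sched.Weyl

/-!
# Row 282, schedule calculus A2: shapes and level functions

Leaf L-SC-S1 = section `Val` (pure recursion on the list), L-SC-S2 = section `Sign`,
L-SC-S3 = section `Level`.
-/

set_option autoImplicit false

namespace Claimed.Agent.R282

variable {n : ℕ}

section Val

/-- the clamp `max 0 (min t 1)` -/
theorem sc_clamp_nonneg (t : ℝ) : 0 ≤ max 0 (min t 1) := le_max_left _ _

theorem sc_clamp_le_one (t : ℝ) : max 0 (min t 1) ≤ 1 := max_le zero_le_one (min_le_right _ _)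

theorem sc_clamp_of_nonpos {t : ℝ} (ht : t ≤ 0) : max 0 (min t 1) = 0 :=
  max_eq_left ((min_le_left _ _).trans ht)

theorem sc_clamp_of_one_le {t : ℝ} (ht : 1 ≤ t) : max 0 (min t 1) = 1 := by
  rw [min_eq_right ht, max_eq_right zero_le_one]

theorem sc_clamp_of_mem {t : ℝ} (h0 : 0 ≤ t) (h1 : t ≤ 1) : max 0 (min t 1) = t := by
  rw [min_eq_left h1, max_eq_right h0]

theorem sc_clamp_mono : Monotone fun t : ℝ => max 0 (min t 1) := fun _ _ h =>
  max_le_max le_rfl (min_le_min h le_rfl)

theorem sc_val_nil (t : ℝ) : Shape.val ([] : Shape n) t = 0 := rfl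

theorem sc_val_cons (v : Vec n) (θ : Shape n) (t : ℝ) :
    Shape.val (v :: θ) t = (max 0 (min t 1)) • v + Shape.val θ (t - 1) := rfl

theorem sc_val_of_nonpos (θ : Shape n) (t : ℝ) (ht : t ≤ 0) : θ.val t = 0 := by
  induction θ generalizing t with
  | nil => rfl
  | cons v θ ih =>
    rw [sc_val_cons, sc_clamp_of_nonpos ht, zero_smul, zero_add]
    exact ih (t - 1) (by linarith)

theorem sc_val_zero (θ : Shape n) : θ.val 0 = 0 := sc_val_of_nonpos θ 0 le_rfl

theorem sc_val_of_length_le (θ : Shape n) (t : ℝ) (ht : (θ.length : ℝ) ≤ t) : θ.val t = θ.sum := by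
  induction θ generalizing t with
  | nil => rfl
  | cons v θ ih =>
    rw [List.length_cons, Nat.cast_add, Nat.cast_one] at ht
    have h0 : (0 : ℝ) ≤ (θ.length : ℝ) := Nat.cast_nonneg _
    rw [sc_val_cons, sc_clamp_of_one_le (by linarith), one_smul, List.sum_cons,
      ih (t - 1) (by linarith)]

theorem sc_val_length (θ : Shape n) : θ.val θ.length = θ.sum := sc_val_of_length_le θ _ le_rfl

theorem sc_val_continuous (θ : Shape n) : Continuous θ.val := by
  induction θ with
  | nil => exact continuous_const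
  | cons v θ ih =>
    have h1 : Continuous fun t : ℝ => max 0 (min t 1) :=
      continuous_const.max (continuous_id.min continuous_const)
    have h2 : Continuous fun t : ℝ => Shape.val θ (t - 1) := ih.comp (continuous_id.sub continuous_const)
    exact (h1.smul continuous_const).add h2

/-- the shape is affine on `[k, k+1]` -/
theorem sc_val_segment (θ : Shape n) (k : ℕ) (hk : k < θ.length) (t : ℝ) (h0 : (k : ℝ) ≤ t)
    (h1 : t ≤ k + 1) : θ.val t = (θ.take k).sum + (t - k) • θ[k] := by
  induction θ generalizing k t with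
  | nil => exact absurd hk (Nat.not_lt_zero _)
  | cons v θ ih =>
    cases k with
    | zero =>
      rw [Nat.cast_zero] at h0 h1
      rw [sc_val_cons, sc_clamp_of_mem h0 (by linarith), sc_val_of_nonpos θ (t - 1) (by linarith)]
      simp
    | succ k =>
      rw [Nat.cast_add, Nat.cast_one] at h0 h1
      have hk0 : (0 : ℝ) ≤ (k : ℝ) := Nat.cast_nonneg _
      have hk' : k < θ.length := by simpa using hk
      rw [sc_val_cons, sc_clamp_of_one_le (by linarith), one_smul,
        ih k hk' (t - 1) (by linarith) (by linarith)]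
      rw [List.take_succ_cons, List.sum_cons, List.getElem_cons_succ, Nat.cast_add, Nat.cast_one,
        add_assoc]
      congr 3
      ring

theorem sc_val_nat (θ : Shape n) (k : ℕ) : θ.val k = (θ.take k).sum := by
  by_cases hk : k < θ.length
  · rw [sc_val_segment θ k hk k le_rfl (by linarith), sub_self, zero_smul, add_zero]
  · have hk' : θ.length ≤ k := not_lt.1 hk
    rw [sc_val_of_length_le θ k (by exact_mod_cast hk'), List.take_of_length_le hk']

/-- linear maps commute with `val` (also between different ranks) -/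
theorem sc_val_map {m : ℕ} (θ : Shape n) (f : Vec n → Vec m) (hf : IsLinearMap ℝ f) (t : ℝ) :
    Shape.val (θ.map f) t = f (θ.val t) := by
  induction θ generalizing t with
  | nil => exact hf.map_zero.symm
  | cons v θ ih =>
    rw [List.map_cons, sc_val_cons, sc_val_cons, hf.map_add, hf.map_smul, ih]

theorem sc_sum_map {m : ℕ} (θ : Shape n) (f : Vec n → Vec m) (hf : IsLinearMap ℝ f) :
    (θ.map f).sum = f θ.sum := by
  induction θ with
  | nil => exact hf.map_zero.symm
  | cons v θ ih => rw [List.map_cons, List.sum_cons, List.sum_cons, hf.map_add, ih]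

/-- `val t` is a combination of the increments with coefficients in `[0,1]` -/
theorem sc_val_eq_comb (θ : Shape n) (t : ℝ) :
    ∃ c : List ℝ, c.length = θ.length ∧ (∀ a ∈ c, 0 ≤ a ∧ a ≤ 1) ∧
      θ.val t = (List.zipWith (fun a v => a • v) c θ).sum := by
  induction θ generalizing t with
  | nil => exact ⟨[], rfl, by simp, rfl⟩
  | cons v θ ih =>
    obtain ⟨c, hc1, hc2, hc3⟩ := ih (t - 1)
    refine ⟨max 0 (min t 1) :: c, by simp [hc1], ?_, ?_⟩
    · intro a ha
      rcases List.mem_cons.1 ha with rfl | ha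
      · exact ⟨sc_clamp_nonneg t, sc_clamp_le_one t⟩
      · exact hc2 a ha
    · rw [sc_val_cons, hc3, List.zipWith_cons_cons, List.sum_cons]

theorem sc_dot_val_cons (a v : Vec n) (θ : Shape n) (t : ℝ) :
    dot a (Shape.val (v :: θ) t) = max 0 (min t 1) * dot a v + dot a (Shape.val θ (t - 1)) := by
  rw [sc_val_cons, sc_dot_add_right, sc_dot_smul_right]

theorem sc_dot_val_mono (θ : Shape n) (a : Vec n) (h : ∀ v ∈ θ, 0 ≤ dot a v) :
    Monotone (fun t => dot a (θ.val t)) := by
  induction θ with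
  | nil => exact fun _ _ _ => le_rfl
  | cons v θ ih =>
    intro s t hst
    simp only [sc_dot_val_cons]
    have h1 := ih (fun w hw => h w (List.mem_cons_of_mem _ hw)) (sub_le_sub_right hst 1)
    have h2 := mul_le_mul_of_nonneg_right (sc_clamp_mono hst) (h v List.mem_cons_self)
    exact add_le_add h2 h1

theorem sc_dot_val_strictMono (θ : Shape n) (a : Vec n) (h : ∀ v ∈ θ, 0 < dot a v) :
    StrictMonoOn (fun t => dot a (θ.val t)) (Set.Icc 0 (θ.length : ℝ)) := by
  induction θ with
  | nil =>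
    intro s hs t ht hst
    simp only [List.length_nil, Nat.cast_zero, Set.Icc_self, Set.mem_singleton_iff] at hs ht
    rw [hs, ht] at hst
    exact absurd hst (lt_irrefl _)
  | cons v θ ih =>
    intro s hs t ht hst
    simp only [sc_dot_val_cons]
    rw [List.length_cons, Nat.cast_add, Nat.cast_one] at hs ht
    have hv : 0 < dot a v := h v List.mem_cons_self
    have hθ : ∀ w ∈ θ, 0 < dot a w := fun w hw => h w (List.mem_cons_of_mem _ hw)
    by_cases hs1 : s < 1
    · have h1 := sc_dot_val_mono θ a (fun w hw => (hθ w hw).le) (sub_le_sub_right hst.le 1)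
      have h2 : max 0 (min s 1) < max 0 (min t 1) := by
        rw [sc_clamp_of_mem hs.1 hs1.le]
        exact lt_max_of_lt_right (lt_min hst hs1)
      exact add_lt_add_of_lt_of_le (mul_lt_mul_of_pos_right h2 hv) h1
    · have hs1' : 1 ≤ s := not_lt.1 hs1
      rw [sc_clamp_of_one_le hs1', sc_clamp_of_one_le (hs1'.trans hst.le)]
      have := ih hθ (a := s - 1) ⟨by linarith, by linarith [hs.2]⟩ (b := t - 1)
        ⟨by linarith, by linarith [ht.2]⟩ (by linarith)
      exact add_lt_add_right this _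

theorem sc_dot_val_eq_zero (θ : Shape n) (a : Vec n) (h : ∀ v ∈ θ, dot a v = 0) (t : ℝ) :
    dot a (θ.val t) = 0 := by
  induction θ generalizing t with
  | nil => exact sc_dot_zero_right a
  | cons v θ ih =>
    rw [sc_dot_val_cons, h v List.mem_cons_self, mul_zero, zero_add]
    exact ih (fun w hw => h w (List.mem_cons_of_mem _ hw)) _

/-- subdivision of every increment into two halves -/
noncomputable def Shape.halve (θ : Shape n) : Shape n := θ.flatMap (fun v => [(1 / 2 : ℝ) • v, (1 / 2 : ℝ) • v])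

theorem sc_halve_cons (v : Vec n) (θ : Shape n) :
    Shape.halve (v :: θ) = (1 / 2 : ℝ) • v :: (1 / 2 : ℝ) • v :: Shape.halve θ := rfl

theorem sc_halve_length (θ : Shape n) : θ.halve.length = 2 * θ.length := by
  induction θ with
  | nil => rfl
  | cons v θ ih =>
    rw [sc_halve_cons, List.length_cons, List.length_cons, List.length_cons, ih]
    ring

theorem sc_halve_sum (θ : Shape n) : θ.halve.sum = θ.sum := by
  induction θ with
  | nil => rfl
  | cons v θ ih =>
    rw [sc_halve_cons, List.sum_cons, List.sum_cons, List.sum_cons, ih, ← add_assoc, ← add_smul]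
    norm_num

theorem sc_clamp_halve (t : ℝ) :
    max 0 (min (2 * t) 1) * (1 / 2) + max 0 (min (2 * t - 1) 1) * (1 / 2) = max 0 (min t 1) := by
  rcases le_total t 0 with h | h
  · rw [sc_clamp_of_nonpos h, sc_clamp_of_nonpos (by linarith), sc_clamp_of_nonpos (by linarith)]
    ring
  rcases le_total t (1 / 2) with h2 | h2
  · rw [sc_clamp_of_mem h (by linarith), sc_clamp_of_mem (by linarith) (by linarith),
      sc_clamp_of_nonpos (by linarith)]
    ring
  rcases le_total t 1 with h3 | h3
  · rw [sc_clamp_of_mem h h3, sc_clamp_of_one_le (by linarith),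
      sc_clamp_of_mem (by linarith) (by linarith)]
    ring
  · rw [sc_clamp_of_one_le h3, sc_clamp_of_one_le (by linarith), sc_clamp_of_one_le (by linarith)]
    ring

theorem sc_halve_val (θ : Shape n) (t : ℝ) : θ.halve.val (2 * t) = θ.val t := by
  induction θ generalizing t with
  | nil => rfl
  | cons v θ ih =>
    rw [sc_halve_cons, sc_val_cons, sc_val_cons, sc_val_cons, ← ih (t - 1), ← add_assoc, smul_smul,
      smul_smul, ← add_smul, sc_clamp_halve]
    congr 2
    ring

/-- entrywise convergence of shapes of a fixed length gives uniform convergence of the values -/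
theorem sc_val_dist_le (θ θ' : Shape n) (h : θ.length = θ'.length) (ε : ℝ)
    (hε : ∀ i, dist (θ.getD i 0) (θ'.getD i 0) ≤ ε) (t : ℝ) :
    dist (θ.val t) (θ'.val t) ≤ θ.length * ε := by
  induction θ generalizing θ' t with
  | nil =>
    cases θ' with
    | nil => simp [sc_val_nil]
    | cons v' θ' => simp at h
  | cons v θ ih =>
    cases θ' with
    | nil => simp at h
    | cons v' θ' =>
      have h' : θ.length = θ'.length := by simpa using h
      have h1 := ih θ' h' (fun i => by simpa using hε (i + 1)) (t - 1)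
      have h2 : dist v v' ≤ ε := by simpa using hε 0
      rw [sc_val_cons, sc_val_cons, List.length_cons, Nat.cast_add, Nat.cast_one]
      have h3 : dist (max 0 (min t 1) • v) (max 0 (min t 1) • v') ≤ ε := by
        rw [dist_smul₀, Real.norm_eq_abs, abs_of_nonneg (sc_clamp_nonneg t)]
        calc max 0 (min t 1) * dist v v' ≤ 1 * dist v v' :=
              mul_le_mul_of_nonneg_right (sc_clamp_le_one t) dist_nonneg
          _ ≤ ε := by rw [one_mul]; exact h2
      calc dist (max 0 (min t 1) • v + Shape.val θ (t - 1)) (max 0 (min t 1) • v' + Shape.val θ' (t - 1))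
          ≤ dist (max 0 (min t 1) • v) (max 0 (min t 1) • v')
              + dist (Shape.val θ (t - 1)) (Shape.val θ' (t - 1)) := dist_add_add_le _ _ _ _
        _ ≤ ε + θ.length * ε := add_le_add h3 h1
        _ = (θ.length + 1) * ε := by ring

end Val

section Sign

theorem sc_vec_dot (β : RootD n) (x : Vec n) :
    dot β.vec x = sgnB β.si * x β.i + sgnB β.sj * x β.j := by
  rw [sc_dot_comm, sc_dot_vec]

/-- every root has one weak sign on the closed chamber -/
theorem sc_root_sign (β : RootD n) :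
    (∀ x, Dom x → 0 ≤ dot β.vec x) ∨ (∀ x, Dom x → dot β.vec x ≤ 0) := by
  rcases lt_or_gt_of_ne β.ne with hij | hij
  · rcases sc_sgnB_cases β.si with h1 | h1
    · left
      intro x hx
      have h := abs_le.1 (hx _ _ hij)
      rw [sc_vec_dot, h1]
      rcases sc_sgnB_cases β.sj with h2 | h2 <;> rw [h2] <;> linarith [h.1, h.2]
    · right
      intro x hx
      have h := abs_le.1 (hx _ _ hij)
      rw [sc_vec_dot, h1]
      rcases sc_sgnB_cases β.sj with h2 | h2 <;> rw [h2] <;> linarith [h.1, h.2]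
  · rcases sc_sgnB_cases β.sj with h1 | h1
    · left
      intro x hx
      have h := abs_le.1 (hx _ _ hij)
      rw [sc_vec_dot, h1]
      rcases sc_sgnB_cases β.si with h2 | h2 <;> rw [h2] <;> linarith [h.1, h.2]
    · right
      intro x hx
      have h := abs_le.1 (hx _ _ hij)
      rw [sc_vec_dot, h1]
      rcases sc_sgnB_cases β.si with h2 | h2 <;> rw [h2] <;> linarith [h.1, h.2]

theorem sc_dom_zero : Dom (0 : Vec n) := fun i j _ => by simp

theorem sc_dom_add {x y : Vec n} (hx : Dom x) (hy : Dom y) : Dom (x + y) := fun i j hij => by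
  simp only [Pi.add_apply]
  exact (abs_add_le _ _).trans (add_le_add (hx i j hij) (hy i j hij))

theorem sc_dom_smul {x : Vec n} (hx : Dom x) {a : ℝ} (ha : 0 ≤ a) : Dom (a • x) := fun i j hij => by
  simp only [Pi.smul_apply, smul_eq_mul]
  rw [abs_mul, abs_of_nonneg ha]
  exact mul_le_mul_of_nonneg_left (hx i j hij) ha

theorem sc_dom_sum (θ : Shape n) (hθ : ∀ v ∈ θ, Dom v) : Dom θ.sum := by
  induction θ with
  | nil => exact sc_dom_zero
  | cons v θ ih =>
    rw [List.sum_cons]
    exact sc_dom_add (hθ v List.mem_cons_self) (ih fun w hw => hθ w (List.mem_cons_of_mem _ hw))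

theorem sc_dom_val (θ : Shape n) (hθ : ∀ v ∈ θ, Dom v) (t : ℝ) : Dom (θ.val t) := by
  induction θ generalizing t with
  | nil => exact sc_dom_zero
  | cons v θ ih =>
    rw [sc_val_cons]
    exact sc_dom_add (sc_dom_smul (hθ v List.mem_cons_self) (sc_clamp_nonneg t))
      (ih (fun w hw => hθ w (List.mem_cons_of_mem _ hw)) _)

/-- nonnegative pairings with sum zero vanish -/
theorem sc_dot_zero_of_sum_nonneg (θ : Shape n) (a : Vec n) (h0 : ∀ v ∈ θ, 0 ≤ dot a v)
    (h : dot a θ.sum = 0) : ∀ v ∈ θ, dot a v = 0 := by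
  induction θ with
  | nil => intro v hv; simp at hv
  | cons w θ ih =>
    rw [List.sum_cons, sc_dot_add_right] at h
    have h1 : 0 ≤ dot a w := h0 w List.mem_cons_self
    have hθ : ∀ v ∈ θ, 0 ≤ dot a v := fun v hv => h0 v (List.mem_cons_of_mem _ hv)
    have h2 : 0 ≤ dot a θ.sum := by
      have := sc_dot_val_mono θ a hθ (Nat.cast_nonneg θ.length : (0 : ℝ) ≤ θ.length)
      simp only [sc_val_zero, sc_val_length, sc_dot_zero_right] at this
      exact this
    intro v hv
    rcases List.mem_cons.1 hv with rfl | hv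
    · linarith
    · exact ih hθ (by linarith) v hv

/-- a root that vanishes on `μ` vanishes on all increments -/
theorem sc_root_zero_of_sum (θ : Shape n) (hθ : ∀ v ∈ θ, Dom v) (β : RootD n)
    (h : dot β.vec θ.sum = 0) : ∀ v ∈ θ, dot β.vec v = 0 := by
  rcases sc_root_sign β with hs | hs
  · exact sc_dot_zero_of_sum_nonneg θ β.vec (fun v hv => hs v (hθ v hv)) h
  · intro v hv
    have := sc_dot_zero_of_sum_nonneg θ (-β.vec)
      (fun v hv => by rw [sc_dot_neg_left]; linarith [hs v (hθ v hv)])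
      (by rw [sc_dot_neg_left, h, neg_zero]) v hv
    rw [sc_dot_neg_left] at this
    linarith

theorem sc_root_nonneg_of_sum (θ : Shape n) (hθ : ∀ v ∈ θ, Dom v) (β : RootD n)
    (h : 0 ≤ dot β.vec θ.sum) : ∀ v ∈ θ, 0 ≤ dot β.vec v := by
  rcases sc_root_sign β with hs | hs
  · exact fun v hv => hs v (hθ v hv)
  · have h0 : dot β.vec θ.sum = 0 := le_antisymm (hs _ (sc_dom_sum θ hθ)) h
    exact fun v hv => (sc_root_zero_of_sum θ hθ β h0 v hv).ge

theorem sc_root_pos_of_sum (θ : Shape n) (G : GenericShape θ) (β : RootD n)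
    (h : 0 < dot β.vec θ.sum) : ∀ v ∈ θ, 0 < dot β.vec v := by
  intro v hv
  refine lt_of_le_of_ne (sc_root_nonneg_of_sum θ G.dom β h.le v hv) fun h0 => ?_
  exact h.ne' (G.relint v hv β h0.symm)

theorem sc_inFace_mem (θ : Shape n) (hθ : ∀ v ∈ θ, Dom v) : ∀ v ∈ θ, InFace θ.sum v :=
  fun v hv β hβ => sc_root_zero_of_sum θ hθ β hβ v hv

theorem sc_inFace_val (θ : Shape n) (hθ : ∀ v ∈ θ, Dom v) (t : ℝ) : InFace θ.sum (θ.val t) :=
  fun β hβ => sc_dot_val_eq_zero θ β.vec (sc_root_zero_of_sum θ hθ β hβ) t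

theorem sc_inFace_sum (mu : Vec n) : InFace mu mu := fun _ h => h

theorem sc_inFace_add (mu x y : Vec n) (hx : InFace mu x) (hy : InFace mu y) :
    InFace mu (x + y) := fun β hβ => by
  rw [sc_dot_add_right, hx β hβ, hy β hβ, add_zero]

theorem sc_inFace_smul (mu x : Vec n) (a : ℝ) (hx : InFace mu x) : InFace mu (a • x) :=
  fun β hβ => by rw [sc_dot_smul_right, hx β hβ, mul_zero]

end Sign

section Level

/-- the level function is the pairing of the shape with one root -/
theorem sc_coeff_root (S : SwState n) (hS : IsFrame S.frame) (β : RootD n) :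
    ∃ γ : RootD n, ∀ x, - dot β.vec (S.frame x) = dot γ.vec x := by
  obtain ⟨γ, hγ⟩ := sc_frame_root S.frame hS β
  refine ⟨γ.opp, fun x => ?_⟩
  rw [sc_neg_vec, sc_dot_neg_left, hγ]

/-- the level function starts at `0` … -/
theorem sc_coeff_zero (θ : Shape n) (S : SwState n) (hS : IsFrame S.frame) (β : RootD n) :
    S.coeff θ 0 β = 0 := by
  obtain ⟨γ, hγ⟩ := sc_coeff_root S hS β
  unfold SwState.coeff
  rw [hγ, sc_val_zero, sc_dot_zero_right]

/-- … and ends at the total pairing -/
theorem sc_coeff_length (θ : Shape n) (S : SwState n) (β : RootD n) :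
    S.coeff θ θ.length β = S.total θ β := by
  unfold SwState.coeff SwState.total
  rw [sc_val_length]

theorem sc_dot_continuous (a : Vec n) : Continuous fun x : Vec n => dot a x := by
  unfold dot
  exact continuous_finsetSum _ fun i _ => continuous_const.mul (continuous_apply i)

theorem sc_coeff_continuous (θ : Shape n) (S : SwState n) (hS : IsFrame S.frame) (β : RootD n) :
    Continuous (fun t => S.coeff θ t β) := by
  obtain ⟨γ, hγ⟩ := sc_coeff_root S hS β
  unfold SwState.coeff
  simp only [hγ]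
  exact (sc_dot_continuous γ.vec).comp (sc_val_continuous θ)

theorem sc_coeff_mono (θ : Shape n) (hθ : ∀ v ∈ θ, Dom v) (S : SwState n) (hS : IsFrame S.frame)
    (β : RootD n) (h : 0 ≤ S.total θ β) : Monotone (fun t => S.coeff θ t β) := by
  obtain ⟨γ, hγ⟩ := sc_coeff_root S hS β
  unfold SwState.total at h
  unfold SwState.coeff
  rw [hγ] at h
  simp only [hγ]
  exact sc_dot_val_mono θ γ.vec (sc_root_nonneg_of_sum θ hθ γ h)

theorem sc_coeff_strictMono (θ : Shape n) (G : GenericShape θ) (S : SwState n)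
    (hS : IsFrame S.frame) (β : RootD n) (h : 0 < S.total θ β) :
    StrictMonoOn (fun t => S.coeff θ t β) (Set.Icc 0 (θ.length : ℝ)) := by
  obtain ⟨γ, hγ⟩ := sc_coeff_root S hS β
  unfold SwState.total at h
  unfold SwState.coeff
  rw [hγ] at h
  simp only [hγ]
  exact sc_dot_val_strictMono θ γ.vec (sc_root_pos_of_sum θ G γ h)

theorem sc_coeff_of_total_zero (θ : Shape n) (hθ : ∀ v ∈ θ, Dom v) (S : SwState n)
    (hS : IsFrame S.frame) (β : RootD n) (h : S.total θ β = 0) (t : ℝ) : S.coeff θ t β = 0 := by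
  obtain ⟨γ, hγ⟩ := sc_coeff_root S hS β
  unfold SwState.total at h
  unfold SwState.coeff
  rw [hγ] at h ⊢
  exact sc_dot_val_eq_zero θ γ.vec (sc_root_zero_of_sum θ hθ γ h) t

/-- a zero total pairing: the reflection fixes the framed face pointwise -/
theorem sc_refl_frame_of_total_zero (θ : Shape n) (S : SwState n) (hS : IsFrame S.frame)
    (β : RootD n) (h : S.total θ β = 0) (x : Vec n) (hx : InFace θ.sum x) :
    refl β (S.frame x) = S.frame x := by
  obtain ⟨γ, hγ⟩ := sc_coeff_root S hS β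
  unfold SwState.total at h
  rw [hγ] at h
  have h1 := hγ x
  rw [hx γ h] at h1
  refine sc_refl_of_orth β _ ?_
  rw [sc_dot_comm]
  linarith

/-- inverse of the level function -/
theorem sc_coeff_surj (θ : Shape n) (hθ : ∀ v ∈ θ, Dom v) (S : SwState n) (hS : IsFrame S.frame)
    (β : RootD n) (c : ℝ) (h0 : 0 ≤ c) (h1 : c ≤ S.total θ β) :
    ∃ t, 0 ≤ t ∧ t ≤ (θ.length : ℝ) ∧ S.coeff θ t β = c := by
  have hc := (sc_coeff_continuous θ S hS β).continuousOn (s := Set.Icc 0 (θ.length : ℝ))
  have hiv := intermediate_value_Icc (Nat.cast_nonneg θ.length : (0 : ℝ) ≤ θ.length) hc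
  have hmem : c ∈ Set.Icc (S.coeff θ 0 β) (S.coeff θ θ.length β) := by
    rw [sc_coeff_zero θ S hS β, sc_coeff_length]
    exact ⟨h0, h1⟩
  obtain ⟨t, ht, htc⟩ := hiv hmem
  exact ⟨t, ht.1, ht.2, htc⟩

/-- continuity of the inverse of a strictly monotone function on an interval (no continuity needed) -/
theorem sc_strictMonoOn_inv_near (g : ℝ → ℝ) (T : ℝ) (hg : StrictMonoOn g (Set.Icc 0 T)) (τ : ℝ)
    (h0 : 0 ≤ τ) (h1 : τ ≤ T) (ε : ℝ) (hε : 0 < ε) :
    ∃ δ > 0, ∀ t, 0 ≤ t → t ≤ T → |g t - g τ| < δ → |t - τ| < ε := by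
  have hτ : τ ∈ Set.Icc 0 T := ⟨h0, h1⟩
  obtain ⟨δ₁, hδ₁, H₁⟩ : ∃ δ₁ > 0, ∀ t, t ≤ T → τ + ε ≤ t → δ₁ ≤ g t - g τ := by
    by_cases h : τ + ε ≤ T
    · have hm : τ + ε ∈ Set.Icc 0 T := ⟨by linarith, h⟩
      refine ⟨g (τ + ε) - g τ, sub_pos.2 (hg hτ hm (by linarith)), fun t ht1 ht2 => ?_⟩
      have := hg.monotoneOn hm (⟨by linarith, ht1⟩ : t ∈ Set.Icc 0 T) ht2
      linarith
    · exact ⟨1, one_pos, fun t ht1 ht2 => absurd (ht2.trans ht1) h⟩
  obtain ⟨δ₂, hδ₂, H₂⟩ : ∃ δ₂ > 0, ∀ t, 0 ≤ t → t ≤ τ - ε → δ₂ ≤ g τ - g t := by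
    by_cases h : 0 ≤ τ - ε
    · have hm : τ - ε ∈ Set.Icc 0 T := ⟨h, by linarith⟩
      refine ⟨g τ - g (τ - ε), sub_pos.2 (hg hm hτ (by linarith)), fun t ht1 ht2 => ?_⟩
      have := hg.monotoneOn (⟨ht1, by linarith⟩ : t ∈ Set.Icc 0 T) hm ht2
      linarith
    · exact ⟨1, one_pos, fun t ht1 ht2 => absurd (ht1.trans ht2) h⟩
  refine ⟨min δ₁ δ₂, lt_min hδ₁ hδ₂, fun t ht0 ht1 hlt => ?_⟩
  rw [abs_lt] at hlt ⊢
  constructor
  · by_contra hcon
    have := H₂ t ht0 (by linarith)
    have h3 := min_le_right δ₁ δ₂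
    linarith [hlt.1]
  · by_contra hcon
    have := H₁ t ht1 (by linarith)
    have h3 := min_le_left δ₁ δ₂
    linarith [hlt.2]

/-- continuity of the inverse at a point: levels close to `S.coeff θ τ β` are attained close to `τ` -/
theorem sc_coeff_inv_near (θ : Shape n) (G : GenericShape θ) (S : SwState n)
    (hS : IsFrame S.frame) (β : RootD n) (h : 0 < S.total θ β) (τ : ℝ) (h0 : 0 ≤ τ)
    (h1 : τ ≤ (θ.length : ℝ)) (ε : ℝ) (hε : 0 < ε) :
    ∃ δ > 0, ∀ t, 0 ≤ t → t ≤ (θ.length : ℝ) → |S.coeff θ t β - S.coeff θ τ β| < δ →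
      |t - τ| < ε :=
  sc_strictMonoOn_inv_near (fun t => S.coeff θ t β) θ.length (sc_coeff_strictMono θ G S hS β h) τ h0 h1
    ε hε

/-- strict bounds at interior times -/
theorem sc_coeff_interior (θ : Shape n) (G : GenericShape θ) (S : SwState n)
    (hS : IsFrame S.frame) (β : RootD n) (h : 0 < S.total θ β) (t : ℝ) (h0 : 0 < t)
    (h1 : t < (θ.length : ℝ)) : 0 < S.coeff θ t β ∧ S.coeff θ t β < S.total θ β := by
  have hm := sc_coeff_strictMono θ G S hS β h
  have hT : (0 : ℝ) ≤ θ.length := Nat.cast_nonneg _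
  have ht : t ∈ Set.Icc 0 (θ.length : ℝ) := ⟨h0.le, h1.le⟩
  constructor
  · have := hm (⟨le_rfl, hT⟩ : (0 : ℝ) ∈ Set.Icc 0 (θ.length : ℝ)) ht h0
    simp only [sc_coeff_zero θ S hS β] at this
    exact this
  · have := hm ht (⟨hT, le_rfl⟩ : (θ.length : ℝ) ∈ Set.Icc 0 (θ.length : ℝ)) h1
    simp only [sc_coeff_length] at this
    exact this

end Level

end Claimed.Agent.R282
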