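import Claimed.Agent.R282.Sched.Simplify

/-!
# Row 282, schedule calculus A5 + A6: raw schedules, blocks, sorting

Leaf L-SC-B1 = section `Raw`, L-SC-B2 = section `Tag` (definitions + restriction),
L-SC-B3 = section `Merge`, L-SC-B4 = section `Sorting`, L-SC-B5 = section `Inv`.

A RAW schedule has initial frame `id`; its shape is the already framed list of increments `w0 θ` and
its endpoint is prescribed exactly.  No Weyl group element occurs, so restriction to a block and
superposition of blocks are statements about lists.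
A list of switches whose roots respect a splitting `e : Fin p ⊕ Fin q ≃ Fin n` is stored as a TAGGED
list `List (ℝ × (RootD p ⊕ RootD q))`.
-/

set_option autoImplicit false

namespace Claimed.Agent.R282

variable {n p q : ℕ}

section Raw

/-- raw schedule: initial frame `id`, framed shape, exact endpoint -/
structure RawSched (lam : Vec n) (θ : Shape n) (y1 : Vec n) (l : List (ℝ × RootD n)) : Prop where
  times_mem : ∀ x ∈ l, 0 ≤ x.1 ∧ x.1 ≤ (θ.length : ℝ)
  sorted : l.Pairwise (fun x y => x.1 ≤ y.1)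
  valid : SwValid θ ⟨id, lam⟩ l
  endpoint : (runSw θ ⟨id, lam⟩ l).pos θ θ.length = y1

theorem sc_raw_valid (lam : Vec n) (θ : Shape n) (w0 : WD n) (l : List (ℝ × RootD n)) :
    SwValid θ ⟨w0.act, lam⟩ l ↔ SwValid (θ.map w0.act) ⟨id, lam⟩ l :=
  sc_reframe_valid θ w0.act (sc_WD_act_isLinear w0) id lam l

theorem sc_raw_pos (lam : Vec n) (θ : Shape n) (w0 : WD n) (l : List (ℝ × RootD n)) :
    (runSw θ ⟨w0.act, lam⟩ l).pos θ θ.length
      = (runSw (θ.map w0.act) ⟨id, lam⟩ l).pos (θ.map w0.act) (θ.map w0.act).length := by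
  rw [List.length_map]
  exact sc_reframe_pos θ w0.act (sc_WD_act_isLinear w0) id lam l _

theorem sc_raw_iff (lam xi : Vec n) (θ : Shape n) (w0 : WD n) (l : List (ℝ × RootD n)) :
    IsSchedule lam θ xi w0 l ↔ ∃ w : WD n, RawSched lam (θ.map w0.act) (w.act xi) l := by
  constructor
  · rintro ⟨h1, h2, h3, w, h4⟩
    refine ⟨w, ?_, h2, (sc_raw_valid lam θ w0 l).1 h3, ?_⟩
    · rw [List.length_map]; exact h1
    · rw [← sc_raw_pos]; exact h4
  · rintro ⟨w, h1, h2, h3, h4⟩
    refine ⟨?_, h2, (sc_raw_valid lam θ w0 l).2 h3, w, ?_⟩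
    · rw [List.length_map] at h1; exact h1
    · rw [sc_raw_pos]; exact h4

theorem sc_raw_iff_A (lam xi : Vec n) (θ : Shape n) (w0 : WD n) (l : List (ℝ × RootD n)) :
    IsSched .A lam θ xi w0 l ↔ Ty.A.IsW w0 ∧ (∀ x ∈ l, x.2.IsPerm) ∧
      ∃ w : WD n, Ty.A.IsW w ∧ RawSched lam (θ.map w0.act) (w.act xi) l := by
  constructor
  · rintro ⟨h0, h0', h1, h2, h3, w, hw, h4⟩
    refine ⟨h0, h0', w, hw, ?_, h2, (sc_raw_valid lam θ w0 l).1 h3, ?_⟩
    · rw [List.length_map]; exact h1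
    · rw [← sc_raw_pos]; exact h4
  · rintro ⟨h0, h0', w, hw, h1, h2, h3, h4⟩
    refine ⟨h0, h0', ?_, h2, (sc_raw_valid lam θ w0 l).2 h3, w, hw, ?_⟩
    · rw [List.length_map] at h1; exact h1
    · rw [sc_raw_pos]; exact h4

theorem sc_raw_coeffs (lam : Vec n) (θ : Shape n) (w0 : WD n) (l : List (ℝ × RootD n)) :
    swCoeffs θ ⟨w0.act, lam⟩ l = swCoeffs (θ.map w0.act) ⟨id, lam⟩ l :=
  sc_reframe_coeffs θ w0.act (sc_WD_act_isLinear w0) id lam l

theorem sc_raw_integral (lam : Vec n) (θ : Shape n) (w0 : WD n) (l : List (ℝ × RootD n)) :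
    SwIntegral θ ⟨w0.act, lam⟩ l ↔ SwIntegral (θ.map w0.act) ⟨id, lam⟩ l := by
  rw [sc_integral_iff_coeffs, sc_integral_iff_coeffs, sc_raw_coeffs]

theorem sc_WB_act_injective (g : WB n) : Function.Injective g.act := by
  obtain ⟨k, hk, -⟩ := sc_WB_inv g
  intro x y h
  rw [← hk x, ← hk y, h]

theorem sc_mapSw_mem (g : WB n) (l : List (ℝ × RootD n)) (P : ℝ → Prop) :
    (∀ x ∈ mapSw g l, P x.1) ↔ ∀ x ∈ l, P x.1 := by
  unfold mapSw
  simp only [List.mem_map, forall_exists_index, and_imp, forall_apply_eq_imp_iff₂]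

theorem sc_mapSw_sorted (g : WB n) (l : List (ℝ × RootD n)) :
    (mapSw g l).Pairwise (fun x y => x.1 ≤ y.1) ↔ l.Pairwise (fun x y => x.1 ≤ y.1) := by
  unfold mapSw
  rw [List.pairwise_map]

/-- equivariance under all signed permutations -/
theorem sc_raw_equiv (g : WB n) (lam y1 : Vec n) (θ : Shape n) (l : List (ℝ × RootD n)) :
    RawSched (g.act lam) (θ.map g.act) (g.act y1) (mapSw g l) ↔ RawSched lam θ y1 l := by
  have hv : SwValid (θ.map g.act) ⟨id, g.act lam⟩ (mapSw g l) ↔ SwValid θ ⟨id, lam⟩ l := by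
    rw [← sc_reframe_valid θ g.act (sc_WB_act_isLinear g) id (g.act lam) (mapSw g l)]
    exact sc_equiv_valid θ g ⟨id, lam⟩ l
  have hp : (runSw (θ.map g.act) ⟨id, g.act lam⟩ (mapSw g l)).pos (θ.map g.act) (θ.map g.act).length
      = g.act ((runSw θ ⟨id, lam⟩ l).pos θ θ.length) := by
    rw [List.length_map,
      ← sc_reframe_pos θ g.act (sc_WB_act_isLinear g) id (g.act lam) (mapSw g l) θ.length,
      ← sc_equiv_pos, ← sc_equiv_run]
    rfl
  constructor
  · rintro ⟨h1, h2, h3, h4⟩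
    refine ⟨?_, (sc_mapSw_sorted g l).1 h2, hv.1 h3, ?_⟩
    · rw [List.length_map] at h1
      exact (sc_mapSw_mem g l fun t => 0 ≤ t ∧ t ≤ (θ.length : ℝ)).1 h1
    · rw [hp] at h4
      exact sc_WB_act_injective g h4
  · rintro ⟨h1, h2, h3, h4⟩
    refine ⟨?_, (sc_mapSw_sorted g l).2 h2, hv.2 h3, ?_⟩
    · rw [List.length_map]
      exact (sc_mapSw_mem g l fun t => 0 ≤ t ∧ t ≤ (θ.length : ℝ)).2 h1
    · rw [hp, h4]

theorem sc_raw_equiv_integral (g : WB n) (lam : Vec n) (θ : Shape n) (l : List (ℝ × RootD n)) :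
    SwIntegral (θ.map g.act) ⟨id, g.act lam⟩ (mapSw g l) ↔ SwIntegral θ ⟨id, lam⟩ l := by
  rw [sc_integral_iff_coeffs, sc_integral_iff_coeffs,
    ← sc_reframe_coeffs θ g.act (sc_WB_act_isLinear g) id (g.act lam) (mapSw g l),
    ← sc_equiv_coeffs θ g ⟨id, lam⟩ l]
  rfl

end Raw

section Tag

/-- glue two block vectors -/
def glueV (e : Fin p ⊕ Fin q ≃ Fin n) (a : Vec p) (b : Vec q) : Vec n :=
  fun i => Sum.elim a b (e.symm i)

/-- a root of the first block as a root of `D_n` -/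
def RootD.inL (e : Fin p ⊕ Fin q ≃ Fin n) (β : RootD p) : RootD n :=
  ⟨e (Sum.inl β.i), e (Sum.inl β.j), fun h => β.ne (Sum.inl_injective (e.injective h)), β.si, β.sj⟩

/-- a root of the second block as a root of `D_n` -/
def RootD.inR (e : Fin p ⊕ Fin q ≃ Fin n) (β : RootD q) : RootD n :=
  ⟨e (Sum.inr β.i), e (Sum.inr β.j), fun h => β.ne (Sum.inr_injective (e.injective h)), β.si, β.sj⟩

/-- tagged lists of switches -/
abbrev TagSw (p q : ℕ) := List (ℝ × (RootD p ⊕ RootD q))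

/-- forget the tags -/
def untag (e : Fin p ⊕ Fin q ≃ Fin n) (L : TagSw p q) : List (ℝ × RootD n) :=
  L.map (fun x => (x.1, Sum.elim (RootD.inL e) (RootD.inR e) x.2))

/-- the switches of the first block -/
def tagL (L : TagSw p q) : List (ℝ × RootD p) :=
  L.filterMap (fun x => Sum.elim (fun β => some (x.1, β)) (fun _ => none) x.2)

/-- the switches of the second block -/
def tagR (L : TagSw p q) : List (ℝ × RootD q) :=
  L.filterMap (fun x => Sum.elim (fun _ => none) (fun β => some (x.1, β)) x.2)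

theorem sc_resL_isLinear (e : Fin p ⊕ Fin q ≃ Fin n) : IsLinearMap ℝ (resL e) :=
  ⟨fun _ _ => rfl, fun _ _ => rfl⟩

theorem sc_resR_isLinear (e : Fin p ⊕ Fin q ≃ Fin n) : IsLinearMap ℝ (resR e) :=
  ⟨fun _ _ => rfl, fun _ _ => rfl⟩

theorem sc_glue_res (e : Fin p ⊕ Fin q ≃ Fin n) (x : Vec n) :
    glueV e (resL e x) (resR e x) = x := by
  funext i
  obtain ⟨s, rfl⟩ := e.surjective i
  unfold glueV
  rw [e.symm_apply_apply]
  cases s <;> rfl

theorem sc_resL_glue (e : Fin p ⊕ Fin q ≃ Fin n) (a : Vec p) (b : Vec q) :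
    resL e (glueV e a b) = a := by
  funext i
  unfold resL glueV
  rw [e.symm_apply_apply]
  rfl

theorem sc_resR_glue (e : Fin p ⊕ Fin q ≃ Fin n) (a : Vec p) (b : Vec q) :
    resR e (glueV e a b) = b := by
  funext i
  unfold resR glueV
  rw [e.symm_apply_apply]
  rfl

theorem sc_sum_split (e : Fin p ⊕ Fin q ≃ Fin n) (x : Vec n) :
    ∑ i, x i = ∑ i, resL e x i + ∑ i, resR e x i := by
  rw [← Equiv.sum_comp e x, Fintype.sum_sum_type]
  rfl

theorem sc_dot_split (e : Fin p ⊕ Fin q ≃ Fin n) (x y : Vec n) :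
    dot x y = dot (resL e x) (resL e y) + dot (resR e x) (resR e y) :=
  sc_sum_split e fun i => x i * y i

theorem sc_inL_vec (e : Fin p ⊕ Fin q ≃ Fin n) (β : RootD p) :
    (β.inL e).vec = glueV e β.vec 0 := by
  funext k
  obtain ⟨s, rfl⟩ := e.surjective k
  unfold glueV RootD.vec RootD.inL
  rw [e.symm_apply_apply]
  cases s with
  | inl a => simp only [e.injective.eq_iff, Sum.inl.injEq, Sum.elim_inl]
  | inr b => simp [e.injective.eq_iff]

theorem sc_inR_vec (e : Fin p ⊕ Fin q ≃ Fin n) (β : RootD q) :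
    (β.inR e).vec = glueV e 0 β.vec := by
  funext k
  obtain ⟨s, rfl⟩ := e.surjective k
  unfold glueV RootD.vec RootD.inR
  rw [e.symm_apply_apply]
  cases s with
  | inl a => simp [e.injective.eq_iff]
  | inr b => simp only [e.injective.eq_iff, Sum.inr.injEq, Sum.elim_inr]

/-- a splitting adapted to a set of axes -/
theorem sc_exists_split (B : Finset (Fin n)) :
    ∃ (p q : ℕ) (e : Fin p ⊕ Fin q ≃ Fin n), p = B.card ∧ p + q = n ∧
      ∀ i, i ∈ B ↔ ∃ a, e (Sum.inl a) = i := by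
  have hc1 : Fintype.card {i // i ∈ B} = B.card := Fintype.card_coe B
  have hc2 : Fintype.card {i // ¬ i ∈ B} = n - B.card := by
    rw [Fintype.card_subtype_compl, hc1, Fintype.card_fin]
  have hle : B.card ≤ n := by
    have := Finset.card_le_univ B
    rwa [Fintype.card_fin] at this
  let e1 : Fin B.card ≃ {i // i ∈ B} := (Fintype.equivFinOfCardEq hc1).symm
  let e2 : Fin (n - B.card) ≃ {i // ¬ i ∈ B} := (Fintype.equivFinOfCardEq hc2).symm
  refine ⟨B.card, n - B.card, (Equiv.sumCongr e1 e2).trans (Equiv.sumCompl (· ∈ B)), rfl,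
    by omega, fun i => ?_⟩
  constructor
  · intro hi
    refine ⟨e1.symm ⟨i, hi⟩, ?_⟩
    simp
  · rintro ⟨a, rfl⟩
    simp only [Equiv.trans_apply, Equiv.sumCongr_apply, Sum.map_inl, Equiv.sumCompl_apply_inl]
    exact (e1 a).2

/-- a list closed under the splitting can be tagged -/
theorem sc_exists_tag (e : Fin p ⊕ Fin q ≃ Fin n) (B : Finset (Fin n))
    (hB : ∀ i, i ∈ B ↔ ∃ a, e (Sum.inl a) = i) (l : List (ℝ × RootD n)) (h : SwClosed l B) :
    ∃ L : TagSw p q, untag e L = l := by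
  induction l with
  | nil => exact ⟨[], rfl⟩
  | cons x l ih =>
    obtain ⟨L, hL⟩ := ih fun y hy => h y (List.mem_cons_of_mem _ hy)
    have hx := h x List.mem_cons_self
    obtain ⟨t, ⟨i, j, hne, si, sj⟩⟩ := x
    simp only at hx
    have hnot : ∀ k, k ∉ B → ∃ b, e (Sum.inr b) = k := by
      intro k hk
      obtain ⟨s, rfl⟩ := e.surjective k
      cases s with
      | inl a => exact absurd ((hB _).2 ⟨a, rfl⟩) hk
      | inr b => exact ⟨b, rfl⟩
    by_cases hi : i ∈ B
    · obtain ⟨a, rfl⟩ := (hB i).1 hi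
      obtain ⟨a', rfl⟩ := (hB j).1 (hx.1 hi)
      refine ⟨(t, Sum.inl ⟨a, a', fun hh => hne (by rw [hh]), si, sj⟩) :: L, ?_⟩
      unfold untag at hL ⊢
      rw [List.map_cons, hL]
      rfl
    · obtain ⟨b, rfl⟩ := hnot i hi
      obtain ⟨b', rfl⟩ := hnot j fun hj => hi (hx.2 hj)
      refine ⟨(t, Sum.inr ⟨b, b', fun hh => hne (by rw [hh]), si, sj⟩) :: L, ?_⟩
      unfold untag at hL ⊢
      rw [List.map_cons, hL]
      rfl

/-- compatibility of a state with two block states -/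
def BlockCompat (e : Fin p ⊕ Fin q ≃ Fin n) (S : SwState n) (SL : SwState p) (SR : SwState q) :
    Prop :=
  (∀ x, resL e (S.frame x) = SL.frame (resL e x)) ∧ (∀ x, resR e (S.frame x) = SR.frame (resR e x)) ∧
    resL e S.c = SL.c ∧ resR e S.c = SR.c

theorem sc_untag_cons_inl (e : Fin p ⊕ Fin q ≃ Fin n) (t : ℝ) (β : RootD p) (L : TagSw p q) :
    untag e ((t, Sum.inl β) :: L) = (t, β.inL e) :: untag e L := rfl

theorem sc_untag_cons_inr (e : Fin p ⊕ Fin q ≃ Fin n) (t : ℝ) (β : RootD q) (L : TagSw p q) :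
    untag e ((t, Sum.inr β) :: L) = (t, β.inR e) :: untag e L := rfl

theorem sc_tagL_cons_inl (t : ℝ) (β : RootD p) (L : TagSw p q) :
    tagL ((t, Sum.inl β) :: L) = (t, β) :: tagL L := rfl

theorem sc_tagL_cons_inr (t : ℝ) (β : RootD q) (L : TagSw p q) :
    tagL ((t, Sum.inr β) :: L) = tagL L := rfl

theorem sc_tagR_cons_inl (t : ℝ) (β : RootD p) (L : TagSw p q) :
    tagR ((t, Sum.inl β) :: L) = tagR L := rfl

theorem sc_tagR_cons_inr (t : ℝ) (β : RootD q) (L : TagSw p q) :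
    tagR ((t, Sum.inr β) :: L) = (t, β) :: tagR L := rfl

theorem sc_dot_inL (e : Fin p ⊕ Fin q ≃ Fin n) (β : RootD p) (y : Vec n) :
    dot y (β.inL e).vec = dot (resL e y) β.vec := by
  rw [sc_dot_split e, sc_inL_vec, sc_resL_glue, sc_resR_glue, sc_dot_zero_right, add_zero]

theorem sc_dot_inR (e : Fin p ⊕ Fin q ≃ Fin n) (β : RootD q) (y : Vec n) :
    dot y (β.inR e).vec = dot (resR e y) β.vec := by
  rw [sc_dot_split e, sc_inR_vec, sc_resL_glue, sc_resR_glue, sc_dot_zero_right, zero_add]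

theorem sc_resL_refl_inL (e : Fin p ⊕ Fin q ≃ Fin n) (β : RootD p) (y : Vec n) :
    resL e (refl (β.inL e) y) = refl β (resL e y) := by
  unfold refl
  rw [(sc_resL_isLinear e).map_sub, (sc_resL_isLinear e).map_smul, sc_dot_inL, sc_inL_vec, sc_resL_glue]

theorem sc_resR_refl_inL (e : Fin p ⊕ Fin q ≃ Fin n) (β : RootD p) (y : Vec n) :
    resR e (refl (β.inL e) y) = resR e y := by
  unfold refl
  rw [(sc_resR_isLinear e).map_sub, (sc_resR_isLinear e).map_smul, sc_inL_vec, sc_resR_glue, smul_zero,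
    sub_zero]

theorem sc_resR_refl_inR (e : Fin p ⊕ Fin q ≃ Fin n) (β : RootD q) (y : Vec n) :
    resR e (refl (β.inR e) y) = refl β (resR e y) := by
  unfold refl
  rw [(sc_resR_isLinear e).map_sub, (sc_resR_isLinear e).map_smul, sc_dot_inR, sc_inR_vec, sc_resR_glue]

theorem sc_resL_refl_inR (e : Fin p ⊕ Fin q ≃ Fin n) (β : RootD q) (y : Vec n) :
    resL e (refl (β.inR e) y) = resL e y := by
  unfold refl
  rw [(sc_resL_isLinear e).map_sub, (sc_resL_isLinear e).map_smul, sc_inR_vec, sc_resL_glue, smul_zero,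
    sub_zero]

section compat
variable {e : Fin p ⊕ Fin q ≃ Fin n} {S : SwState n} {SL : SwState p} {SR : SwState q}

theorem BlockCompat.coeffL (h : BlockCompat e S SL SR) (θ : Shape n) (t : ℝ) (β : RootD p) :
    S.coeff θ t (β.inL e) = SL.coeff (θ.map (resL e)) t β := by
  unfold SwState.coeff
  rw [sc_dot_comm, sc_dot_inL, h.1, sc_val_map θ _ (sc_resL_isLinear e), sc_dot_comm]

theorem BlockCompat.coeffR (h : BlockCompat e S SL SR) (θ : Shape n) (t : ℝ) (β : RootD q) :
    S.coeff θ t (β.inR e) = SR.coeff (θ.map (resR e)) t β := by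
  unfold SwState.coeff
  rw [sc_dot_comm, sc_dot_inR, h.2.1, sc_val_map θ _ (sc_resR_isLinear e), sc_dot_comm]

theorem BlockCompat.totalL (h : BlockCompat e S SL SR) (θ : Shape n) (β : RootD p) :
    S.total θ (β.inL e) = SL.total (θ.map (resL e)) β := by
  unfold SwState.total
  rw [sc_dot_comm, sc_dot_inL, h.1, sc_sum_map θ _ (sc_resL_isLinear e), sc_dot_comm]

theorem BlockCompat.totalR (h : BlockCompat e S SL SR) (θ : Shape n) (β : RootD q) :
    S.total θ (β.inR e) = SR.total (θ.map (resR e)) β := by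
  unfold SwState.total
  rw [sc_dot_comm, sc_dot_inR, h.2.1, sc_sum_map θ _ (sc_resR_isLinear e), sc_dot_comm]

theorem BlockCompat.posL (h : BlockCompat e S SL SR) (θ : Shape n) (t : ℝ) :
    resL e (S.pos θ t) = SL.pos (θ.map (resL e)) t := by
  unfold SwState.pos
  rw [(sc_resL_isLinear e).map_add, h.1, h.2.2.1, sc_val_map θ _ (sc_resL_isLinear e)]

theorem BlockCompat.posR (h : BlockCompat e S SL SR) (θ : Shape n) (t : ℝ) :
    resR e (S.pos θ t) = SR.pos (θ.map (resR e)) t := by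
  unfold SwState.pos
  rw [(sc_resR_isLinear e).map_add, h.2.1, h.2.2.2, sc_val_map θ _ (sc_resR_isLinear e)]

theorem BlockCompat.gapL (h : BlockCompat e S SL SR) (θ : Shape n) (t : ℝ) (β : RootD p) :
    S.gap θ t (β.inL e) = SL.gap (θ.map (resL e)) t β := by
  unfold SwState.gap
  rw [sc_dot_inL, h.posL]

theorem BlockCompat.gapR (h : BlockCompat e S SL SR) (θ : Shape n) (t : ℝ) (β : RootD q) :
    S.gap θ t (β.inR e) = SR.gap (θ.map (resR e)) t β := by
  unfold SwState.gap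
  rw [sc_dot_inR, h.posR]

theorem BlockCompat.stepL (h : BlockCompat e S SL SR) (θ : Shape n) (t : ℝ) (β : RootD p) :
    BlockCompat e (S.step θ t (β.inL e)) (SL.step (θ.map (resL e)) t β) SR := by
  refine ⟨fun x => ?_, fun x => ?_, ?_, ?_⟩
  · show resL e (refl (β.inL e) (S.frame x)) = refl β (SL.frame (resL e x))
    rw [sc_resL_refl_inL, h.1]
  · show resR e (refl (β.inL e) (S.frame x)) = SR.frame (resR e x)
    rw [sc_resR_refl_inL, h.2.1]
  · show resL e (S.c - S.coeff θ t (β.inL e) • (β.inL e).vec)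
      = SL.c - SL.coeff (θ.map (resL e)) t β • β.vec
    rw [(sc_resL_isLinear e).map_sub, (sc_resL_isLinear e).map_smul, h.2.2.1, h.coeffL, sc_inL_vec,
      sc_resL_glue]
  · show resR e (S.c - S.coeff θ t (β.inL e) • (β.inL e).vec) = SR.c
    rw [(sc_resR_isLinear e).map_sub, (sc_resR_isLinear e).map_smul, h.2.2.2, sc_inL_vec,
      sc_resR_glue, smul_zero, sub_zero]

theorem BlockCompat.stepR (h : BlockCompat e S SL SR) (θ : Shape n) (t : ℝ) (β : RootD q) :
    BlockCompat e (S.step θ t (β.inR e)) SL (SR.step (θ.map (resR e)) t β) := by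
  refine ⟨fun x => ?_, fun x => ?_, ?_, ?_⟩
  · show resL e (refl (β.inR e) (S.frame x)) = SL.frame (resL e x)
    rw [sc_resL_refl_inR, h.1]
  · show resR e (refl (β.inR e) (S.frame x)) = refl β (SR.frame (resR e x))
    rw [sc_resR_refl_inR, h.2.1]
  · show resL e (S.c - S.coeff θ t (β.inR e) • (β.inR e).vec) = SL.c
    rw [(sc_resL_isLinear e).map_sub, (sc_resL_isLinear e).map_smul, h.2.2.1, sc_inR_vec,
      sc_resL_glue, smul_zero, sub_zero]
  · show resR e (S.c - S.coeff θ t (β.inR e) • (β.inR e).vec)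
      = SR.c - SR.coeff (θ.map (resR e)) t β • β.vec
    rw [(sc_resR_isLinear e).map_sub, (sc_resR_isLinear e).map_smul, h.2.2.2, h.coeffR, sc_inR_vec,
      sc_resR_glue]

end compat

theorem sc_tag_run (e : Fin p ⊕ Fin q ≃ Fin n) (θ : Shape n) (S : SwState n) (SL : SwState p)
    (SR : SwState q) (h : BlockCompat e S SL SR) (L : TagSw p q) :
    BlockCompat e (runSw θ S (untag e L)) (runSw (θ.map (resL e)) SL (tagL L))
      (runSw (θ.map (resR e)) SR (tagR L)) := by
  induction L generalizing S SL SR with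
  | nil => exact h
  | cons x L ih =>
    obtain ⟨t, β | β⟩ := x
    · rw [sc_untag_cons_inl, sc_tagL_cons_inl, sc_tagR_cons_inl]
      exact ih _ _ _ (h.stepL θ t β)
    · rw [sc_untag_cons_inr, sc_tagL_cons_inr, sc_tagR_cons_inr]
      exact ih _ _ _ (h.stepR θ t β)

theorem sc_tag_valid (e : Fin p ⊕ Fin q ≃ Fin n) (θ : Shape n) (S : SwState n) (SL : SwState p)
    (SR : SwState q) (h : BlockCompat e S SL SR) (L : TagSw p q) :
    SwValid θ S (untag e L) ↔
      SwValid (θ.map (resL e)) SL (tagL L) ∧ SwValid (θ.map (resR e)) SR (tagR L) := by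
  induction L generalizing S SL SR with
  | nil => simp [untag, tagL, tagR, SwValid]
  | cons x L ih =>
    obtain ⟨t, β | β⟩ := x
    · rw [sc_untag_cons_inl, sc_tagL_cons_inl, sc_tagR_cons_inl]
      simp only [SwValid]
      rw [ih _ _ _ (h.stepL θ t β), h.gapL, h.totalL]
      tauto
    · rw [sc_untag_cons_inr, sc_tagL_cons_inr, sc_tagR_cons_inr]
      simp only [SwValid]
      rw [ih _ _ _ (h.stepR θ t β), h.gapR, h.totalR]
      tauto

theorem sc_tag_integral (e : Fin p ⊕ Fin q ≃ Fin n) (θ : Shape n) (S : SwState n)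
    (SL : SwState p) (SR : SwState q) (h : BlockCompat e S SL SR) (L : TagSw p q) :
    SwIntegral θ S (untag e L) ↔
      SwIntegral (θ.map (resL e)) SL (tagL L) ∧ SwIntegral (θ.map (resR e)) SR (tagR L) := by
  induction L generalizing S SL SR with
  | nil => simp [untag, tagL, tagR, SwIntegral]
  | cons x L ih =>
    obtain ⟨t, β | β⟩ := x
    · rw [sc_untag_cons_inl, sc_tagL_cons_inl, sc_tagR_cons_inl]
      simp only [SwIntegral]
      rw [ih _ _ _ (h.stepL θ t β), h.coeffL]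
      tauto
    · rw [sc_untag_cons_inr, sc_tagL_cons_inr, sc_tagR_cons_inr]
      simp only [SwIntegral]
      rw [ih _ _ _ (h.stepR θ t β), h.coeffR]
      tauto

theorem sc_blockCompat_id (e : Fin p ⊕ Fin q ≃ Fin n) (lam : Vec n) :
    BlockCompat e ⟨id, lam⟩ ⟨id, resL e lam⟩ ⟨id, resR e lam⟩ :=
  ⟨fun _ => rfl, fun _ => rfl, rfl, rfl⟩

theorem sc_mem_tagL {L : TagSw p q} {x : ℝ × RootD p} : x ∈ tagL L ↔ (x.1, Sum.inl x.2) ∈ L := by
  unfold tagL
  rw [List.mem_filterMap]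
  constructor
  · rintro ⟨⟨t, β | β⟩, h1, h2⟩
    · simp only [Sum.elim_inl, Option.some.injEq] at h2
      rw [← h2]; exact h1
    · simp at h2
  · intro h
    exact ⟨_, h, rfl⟩

theorem sc_mem_tagR {L : TagSw p q} {x : ℝ × RootD q} : x ∈ tagR L ↔ (x.1, Sum.inr x.2) ∈ L := by
  unfold tagR
  rw [List.mem_filterMap]
  constructor
  · rintro ⟨⟨t, β | β⟩, h1, h2⟩
    · simp at h2
    · simp only [Sum.elim_inr, Option.some.injEq] at h2
      rw [← h2]; exact h1
  · intro h
    exact ⟨_, h, rfl⟩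

theorem sc_tagL_sorted {L : TagSw p q} (h : L.Pairwise (fun x y => x.1 ≤ y.1)) :
    (tagL L).Pairwise (fun x y => x.1 ≤ y.1) := by
  induction L with
  | nil => exact List.Pairwise.nil
  | cons x L ih =>
    rw [List.pairwise_cons] at h
    obtain ⟨t, β | β⟩ := x
    · rw [sc_tagL_cons_inl, List.pairwise_cons]
      exact ⟨fun y hy => h.1 _ (sc_mem_tagL.1 hy), ih h.2⟩
    · rw [sc_tagL_cons_inr]
      exact ih h.2

theorem sc_tagR_sorted {L : TagSw p q} (h : L.Pairwise (fun x y => x.1 ≤ y.1)) :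
    (tagR L).Pairwise (fun x y => x.1 ≤ y.1) := by
  induction L with
  | nil => exact List.Pairwise.nil
  | cons x L ih =>
    rw [List.pairwise_cons] at h
    obtain ⟨t, β | β⟩ := x
    · rw [sc_tagR_cons_inl]
      exact ih h.2
    · rw [sc_tagR_cons_inr, List.pairwise_cons]
      exact ⟨fun y hy => h.1 _ (sc_mem_tagR.1 hy), ih h.2⟩

theorem sc_untag_sorted (e : Fin p ⊕ Fin q ≃ Fin n) (L : TagSw p q) :
    (untag e L).Pairwise (fun x y => x.1 ≤ y.1) ↔ L.Pairwise (fun x y => x.1 ≤ y.1) := by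
  unfold untag
  rw [List.pairwise_map]

theorem sc_untag_mem (e : Fin p ⊕ Fin q ≃ Fin n) (L : TagSw p q) (P : ℝ → Prop) :
    (∀ x ∈ untag e L, P x.1) ↔ ∀ x ∈ L, P x.1 := by
  unfold untag
  simp only [List.mem_map, forall_exists_index, and_imp, forall_apply_eq_imp_iff₂]

/-- RESTRICTION of a raw schedule to the two blocks -/
theorem sc_raw_restrict (e : Fin p ⊕ Fin q ≃ Fin n) (lam y1 : Vec n) (θ : Shape n)
    (L : TagSw p q) (h : RawSched lam θ y1 (untag e L)) :
    RawSched (resL e lam) (θ.map (resL e)) (resL e y1) (tagL L) ∧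
      RawSched (resR e lam) (θ.map (resR e)) (resR e y1) (tagR L) := by
  obtain ⟨h1, h2, h3, h4⟩ := h
  have h1' := (sc_untag_mem e L fun t => 0 ≤ t ∧ t ≤ (θ.length : ℝ)).1 h1
  have h2' := (sc_untag_sorted e L).1 h2
  have h3' := (sc_tag_valid e θ _ _ _ (sc_blockCompat_id e lam) L).1 h3
  have hc := sc_tag_run e θ _ _ _ (sc_blockCompat_id e lam) L
  constructor
  · refine ⟨fun x hx => ?_, sc_tagL_sorted h2', h3'.1, ?_⟩
    · rw [List.length_map]
      exact h1' _ (sc_mem_tagL.1 hx)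
    · rw [List.length_map, ← hc.posL, h4]
  · refine ⟨fun x hx => ?_, sc_tagR_sorted h2', h3'.2, ?_⟩
    · rw [List.length_map]
      exact h1' _ (sc_mem_tagR.1 hx)
    · rw [List.length_map, ← hc.posR, h4]

end Tag

section Merge

theorem sc_tag_map_inl (l : List (ℝ × RootD p)) :
    tagL (l.map fun x => (x.1, (Sum.inl x.2 : RootD p ⊕ RootD q))) = l ∧
      tagR (l.map fun x => (x.1, (Sum.inl x.2 : RootD p ⊕ RootD q))) = [] := by
  induction l with
  | nil => exact ⟨rfl, rfl⟩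
  | cons a l ih =>
    rw [List.map_cons, sc_tagL_cons_inl, sc_tagR_cons_inl, ih.1, ih.2]
    exact ⟨rfl, rfl⟩

theorem sc_tag_map_inr (l : List (ℝ × RootD q)) :
    tagL (l.map fun x => (x.1, (Sum.inr x.2 : RootD p ⊕ RootD q))) = [] ∧
      tagR (l.map fun x => (x.1, (Sum.inr x.2 : RootD p ⊕ RootD q))) = l := by
  induction l with
  | nil => exact ⟨rfl, rfl⟩
  | cons a l ih =>
    rw [List.map_cons, sc_tagL_cons_inr, sc_tagR_cons_inr, ih.1, ih.2]
    exact ⟨rfl, rfl⟩

/-- two sorted lists can be merged -/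
theorem sc_exists_merge (lL : List (ℝ × RootD p)) (lR : List (ℝ × RootD q))
    (hL : lL.Pairwise (fun x y => x.1 ≤ y.1)) (hR : lR.Pairwise (fun x y => x.1 ≤ y.1)) :
    ∃ L : TagSw p q, tagL L = lL ∧ tagR L = lR ∧ L.Pairwise (fun x y => x.1 ≤ y.1) := by
  induction lL generalizing lR with
  | nil =>
    refine ⟨lR.map fun x => (x.1, Sum.inr x.2), (sc_tag_map_inr lR).1, (sc_tag_map_inr lR).2, ?_⟩
    rw [List.pairwise_map]
    exact hR
  | cons a lL ihL =>
    induction lR with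
    | nil =>
      refine ⟨(a :: lL).map fun x => (x.1, Sum.inl x.2), (sc_tag_map_inl _).1, (sc_tag_map_inl _).2, ?_⟩
      rw [List.pairwise_map]
      exact hL
    | cons b lR ihR =>
      have hL' := List.pairwise_cons.1 hL
      have hR' := List.pairwise_cons.1 hR
      by_cases hab : a.1 ≤ b.1
      · obtain ⟨L, h1, h2, h3⟩ := ihL (b :: lR) hL'.2 hR
        refine ⟨(a.1, Sum.inl a.2) :: L, ?_, ?_, List.pairwise_cons.2 ⟨fun y hy => ?_, h3⟩⟩
        · rw [sc_tagL_cons_inl, h1]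
        · rw [sc_tagR_cons_inl, h2]
        · obtain ⟨t, β | β⟩ := y
          · have : (t, β) ∈ tagL L := sc_mem_tagL.2 hy
            rw [h1] at this
            exact hL'.1 _ this
          · have : (t, β) ∈ tagR L := sc_mem_tagR.2 hy
            rw [h2] at this
            rcases List.mem_cons.1 this with h | h
            · rw [← h] at hab; exact hab
            · exact hab.trans (hR'.1 _ h)
      · have hba : b.1 ≤ a.1 := (not_le.1 hab).le
        obtain ⟨L, h1, h2, h3⟩ := ihR hR'.2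
        refine ⟨(b.1, Sum.inr b.2) :: L, ?_, ?_, List.pairwise_cons.2 ⟨fun y hy => ?_, h3⟩⟩
        · rw [sc_tagL_cons_inr, h1]
        · rw [sc_tagR_cons_inr, h2]
        · obtain ⟨t, β | β⟩ := y
          · have : (t, β) ∈ tagL L := sc_mem_tagL.2 hy
            rw [h1] at this
            rcases List.mem_cons.1 this with h | h
            · rw [← h] at hba; exact hba
            · exact hba.trans (hL'.1 _ h)
          · have : (t, β) ∈ tagR L := sc_mem_tagR.2 hy
            rw [h2] at this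
            exact hR'.1 _ this

/-- SUPERPOSITION of two raw block schedules -/
theorem sc_raw_superpose (e : Fin p ⊕ Fin q ≃ Fin n) (lam y1 : Vec n) (θ : Shape n)
    (lL : List (ℝ × RootD p)) (lR : List (ℝ × RootD q))
    (hL : RawSched (resL e lam) (θ.map (resL e)) (resL e y1) lL)
    (hR : RawSched (resR e lam) (θ.map (resR e)) (resR e y1) lR) :
    ∃ L : TagSw p q, tagL L = lL ∧ tagR L = lR ∧ RawSched lam θ y1 (untag e L) := by
  obtain ⟨L, h1, h2, h3⟩ := sc_exists_merge lL lR hL.sorted hR.sorted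
  subst h1 h2
  have hc := sc_tag_run e θ _ _ _ (sc_blockCompat_id e lam) L
  refine ⟨L, rfl, rfl, ?_, (sc_untag_sorted e L).2 h3,
    (sc_tag_valid e θ _ _ _ (sc_blockCompat_id e lam) L).2 ⟨hL.valid, hR.valid⟩, ?_⟩
  · refine (sc_untag_mem e L fun t => 0 ≤ t ∧ t ≤ (θ.length : ℝ)).2 fun x hx => ?_
    obtain ⟨t, β | β⟩ := x
    · have := hL.times_mem (t, β) (sc_mem_tagL.2 hx)
      rwa [List.length_map] at this
    · have := hR.times_mem (t, β) (sc_mem_tagR.2 hx)
      rwa [List.length_map] at this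
  · have e1 := hL.endpoint
    have e2 := hR.endpoint
    rw [List.length_map, ← hc.posL] at e1
    rw [List.length_map, ← hc.posR] at e2
    rw [← sc_glue_res e ((runSw θ ⟨id, lam⟩ (untag e L)).pos θ θ.length), e1, e2, sc_glue_res]

/-- block-diagonal Weyl group elements -/
theorem sc_WD_block (e : Fin p ⊕ Fin q ≃ Fin n) (u : WD p) (v : WD q) :
    ∃ w : WD n, ∀ x, w.act x = glueV e (u.act (resL e x)) (v.act (resR e x)) := by
  have hev : Even (Finset.univ.filter fun i : Fin n => Sum.elim u.s v.s (e.symm i) = true).card := by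
    have hcard : (Finset.univ.filter fun i : Fin n => Sum.elim u.s v.s (e.symm i) = true).card
        = (Finset.univ.filter fun i => u.s i = true).card
          + (Finset.univ.filter fun i => v.s i = true).card := by
      rw [Finset.card_filter, Finset.card_filter, Finset.card_filter,
        ← Equiv.sum_comp e (fun i => if Sum.elim u.s v.s (e.symm i) = true then 1 else 0),
        Fintype.sum_sum_type]
      simp only [Equiv.symm_apply_apply, Sum.elim_inl, Sum.elim_inr]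
    rw [hcard]
    exact u.even.add v.even
  refine ⟨⟨(e.symm.trans (Equiv.sumCongr u.σ v.σ)).trans e, fun i => Sum.elim u.s v.s (e.symm i), hev⟩,
    fun x => ?_⟩
  funext i
  obtain ⟨s, rfl⟩ := e.surjective i
  unfold WD.act glueV
  simp only [Equiv.symm_apply_apply, Equiv.symm_trans_apply, Equiv.symm_symm]
  cases s with
  | inl a => rfl
  | inr b => rfl

end Merge

section Sorting

/-- every root has one weak sign on all members of the list -/
def OneSign (θ : Shape n) : Prop :=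
  ∀ β : RootD n, (∀ v ∈ θ, 0 ≤ dot β.vec v) ∨ (∀ v ∈ θ, dot β.vec v ≤ 0)

/-- the same for permutation roots only -/
def OneSignA (θ : Shape n) : Prop :=
  ∀ β : RootD n, β.IsPerm → (∀ v ∈ θ, 0 ≤ dot β.vec v) ∨ (∀ v ∈ θ, dot β.vec v ≤ 0)

theorem sc_oneSign_dom (θ : Shape n) (hθ : ∀ v ∈ θ, Dom v) : OneSign θ := by
  intro β
  rcases sc_root_sign β with h | h
  · exact Or.inl fun v hv => h v (hθ v hv)
  · exact Or.inr fun v hv => h v (hθ v hv)

/-- pull a root back through a signed permutation -/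
theorem sc_WB_root (g : WB n) (β : RootD n) :
    ∃ γ : RootD n, ∀ x, dot β.vec (g.act x) = dot γ.vec x := by
  obtain ⟨k, hk, -⟩ := sc_WB_inv g
  refine ⟨β.map k, fun x => ?_⟩
  rw [sc_map_vec, ← sc_dot_WB_act k β.vec (g.act x), hk]

theorem sc_oneSign_map (θ : Shape n) (h : OneSign θ) (g : WB n) : OneSign (θ.map g.act) := by
  intro β
  obtain ⟨γ, hγ⟩ := sc_WB_root g β
  simp only [List.mem_map, forall_exists_index, and_imp, forall_apply_eq_imp_iff₂, hγ]
  exact h γ

theorem sc_oneSign_resL (e : Fin p ⊕ Fin q ≃ Fin n) (θ : Shape n) (h : OneSign θ) :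
    OneSign (θ.map (resL e)) := by
  intro β
  have hγ : ∀ x, dot β.vec (resL e x) = dot (β.inL e).vec x := fun x => by
    rw [sc_dot_comm, ← sc_dot_inL, sc_dot_comm]
  simp only [List.mem_map, forall_exists_index, and_imp, forall_apply_eq_imp_iff₂, hγ]
  exact h _

theorem sc_oneSign_resR (e : Fin p ⊕ Fin q ≃ Fin n) (θ : Shape n) (h : OneSign θ) :
    OneSign (θ.map (resR e)) := by
  intro β
  have hγ : ∀ x, dot β.vec (resR e x) = dot (β.inR e).vec x := fun x => by
    rw [sc_dot_comm, ← sc_dot_inR, sc_dot_comm]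
  simp only [List.mem_map, forall_exists_index, and_imp, forall_apply_eq_imp_iff₂, hγ]
  exact h _

theorem sc_oneSignA_of (θ : Shape n) (h : OneSign θ) : OneSignA θ := fun β _ => h β

/-- EXTREMAL PRINCIPLE: in a family of Weyl group elements stable under the reflections of a class of
roots, a maximiser of `u ↦ (u x)·ρ` puts `x` on the nonnegative side of all positive roots of the class -/
theorem sc_exists_extremal (Wf : WD n → Prop) (Pr : RootD n → Prop) (h0 : ∃ u, Wf u)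
    (hst : ∀ β, Pr β → ∀ u, Wf u → ∃ w, Wf w ∧ ∀ x, w.act x = refl β (u.act x)) (x : Vec n) :
    ∃ u, Wf u ∧ ∀ β, Pr β → 0 < dot β.vec (rhoV n) → 0 ≤ dot β.vec (u.act x) := by
  have : Finite (WD n) := sc_finite_WD
  have : Nonempty {u : WD n // Wf u} := let ⟨u, hu⟩ := h0; ⟨⟨u, hu⟩⟩
  obtain ⟨⟨u, hu⟩, hmax⟩ := Finite.exists_max fun u : {u : WD n // Wf u} => dot (u.1.act x) (rhoV n)
  refine ⟨u, hu, fun β hβ hpos => ?_⟩
  by_contra hneg
  obtain ⟨w, hw, hwa⟩ := hst β hβ u hu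
  have h1 := hmax ⟨w, hw⟩
  simp only [hwa] at h1
  unfold refl at h1
  rw [sc_dot_sub_left, sc_dot_smul_left, sc_dot_comm (u.act x) β.vec] at h1
  have h2 : dot β.vec (u.act x) * dot β.vec (rhoV n) < 0 :=
    mul_neg_of_neg_of_pos (not_le.1 hneg) hpos
  linarith

theorem sc_rho_sub {i j : Fin n} (hij : i < j) : 0 < rhoV n i - rhoV n j := by
  unfold rhoV
  have : ((i : ℕ) : ℝ) < ((j : ℕ) : ℝ) := by exact_mod_cast hij
  linarith

theorem sc_rho_add {i j : Fin n} (hij : i < j) : 0 < rhoV n i + rhoV n j := by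
  unfold rhoV
  have h1 : ((i : ℕ) : ℝ) + 1 ≤ ((j : ℕ) : ℝ) := by exact_mod_cast hij
  have h2 : ((j : ℕ) : ℝ) + 1 ≤ (n : ℝ) := by exact_mod_cast j.2
  linarith

theorem sc_dom_of_pos_roots (y : Vec n)
    (h : ∀ β : RootD n, 0 < dot β.vec (rhoV n) → 0 ≤ dot β.vec y) : Dom y := by
  intro i j hij
  have h1 := h ⟨i, j, hij.ne, false, true⟩ (by
    rw [sc_vec_dot]; simp only [sgnB]; simpa [sub_eq_add_neg] using sc_rho_sub hij)
  have h2 := h ⟨i, j, hij.ne, false, false⟩ (by
    rw [sc_vec_dot]; simp only [sgnB]; simpa using sc_rho_add hij)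
  rw [sc_vec_dot] at h1 h2
  simp only [sgnB] at h1 h2
  rw [abs_le]
  constructor
  · simp at h2; linarith
  · simp at h1; linarith

theorem sc_domA_of_pos_roots (y : Vec n)
    (h : ∀ β : RootD n, β.IsPerm → 0 < dot β.vec (rhoV n) → 0 ≤ dot β.vec y) : DomA y := by
  intro i j hij
  have h1 := h ⟨i, j, hij.ne, false, true⟩ (by simp [RootD.IsPerm]) (by
    rw [sc_vec_dot]; simp only [sgnB]; simpa [sub_eq_add_neg] using sc_rho_sub hij)
  rw [sc_vec_dot] at h1
  simp only [sgnB] at h1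
  simp at h1
  linarith

theorem sc_extremal_D (x : Vec n) :
    ∃ u : WD n, ∀ β : RootD n, 0 < dot β.vec (rhoV n) → 0 ≤ dot β.vec (u.act x) := by
  obtain ⟨u, -, hu⟩ := sc_exists_extremal (fun _ : WD n => True) (fun _ => True)
    (let ⟨w, _⟩ := sc_WD_one (n := n); ⟨w, trivial⟩)
    (fun β _ u _ => by
      obtain ⟨r, hr⟩ := sc_WD_refl β
      obtain ⟨w, hw⟩ := sc_WD_mul r u
      exact ⟨w, trivial, fun x => by rw [hw, hr]⟩) x
  exact ⟨u, fun β hβ => hu β trivial hβ⟩

theorem sc_extremal_A (x : Vec n) :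
    ∃ u : WD n, Ty.A.IsW u ∧
      ∀ β : RootD n, β.IsPerm → 0 < dot β.vec (rhoV n) → 0 ≤ dot β.vec (u.act x) :=
  sc_exists_extremal (fun u : WD n => Ty.A.IsW u) (fun β => β.IsPerm)
    ⟨⟨1, fun _ => false, by simp⟩, fun _ => rfl⟩
    (fun β hβ u hu => by
      obtain ⟨r, hr1, hr⟩ := sc_WA_refl β hβ
      obtain ⟨w, hw1, hw⟩ := sc_WA_mul r u hr1 hu
      exact ⟨w, hw1, fun x => by rw [hw, hr]⟩) x

/-- every vector has a dominant `W(D_n)`-translate -/
theorem sc_exists_dom (x : Vec n) : ∃ u : WD n, Dom (u.act x) := by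
  obtain ⟨u, hu⟩ := sc_extremal_D x
  exact ⟨u, sc_dom_of_pos_roots _ hu⟩

theorem sc_exists_domA (x : Vec n) : ∃ u : WD n, Ty.A.IsW u ∧ DomA (u.act x) := by
  obtain ⟨u, hu1, hu⟩ := sc_extremal_A x
  exact ⟨u, hu1, sc_domA_of_pos_roots _ hu⟩

/-- one weak sign and a nonnegative total: all pairings are nonnegative -/
theorem sc_nonneg_of_oneSign (θ : Shape n) (a : Vec n)
    (hs : (∀ v ∈ θ, 0 ≤ dot a v) ∨ (∀ v ∈ θ, dot a v ≤ 0)) (h : 0 ≤ dot a θ.sum) :
    ∀ v ∈ θ, 0 ≤ dot a v := by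
  rcases hs with hs | hs
  · exact hs
  · have h1 : ∀ v ∈ θ, 0 ≤ dot (-a) v := fun v hv => by
      rw [sc_dot_neg_left]; linarith [hs v hv]
    have h2 : 0 ≤ dot (-a) θ.sum := by
      have := sc_dot_val_mono θ (-a) h1 (Nat.cast_nonneg θ.length : (0 : ℝ) ≤ θ.length)
      simp only [sc_val_zero, sc_val_length, sc_dot_zero_right] at this
      exact this
    have h3 : dot (-a) θ.sum = 0 := by
      rw [sc_dot_neg_left] at h2 ⊢
      linarith
    intro v hv
    have := sc_dot_zero_of_sum_nonneg θ (-a) h1 h3 v hv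
    rw [sc_dot_neg_left] at this
    linarith

/-- common chamber (take a chamber of the sum; a root that is `≥ 0` there is `≥ 0` on all members) -/
theorem sc_sort_D (θ : Shape n) (h : OneSign θ) :
    ∃ (u : WD n) (θ' : Shape n), (∀ v ∈ θ', Dom v) ∧ θ = θ'.map u.act := by
  obtain ⟨u', hu'⟩ := sc_extremal_D θ.sum
  obtain ⟨u, hu, -⟩ := sc_WD_inv u'
  refine ⟨u, θ.map u'.act, ?_, ?_⟩
  · simp only [List.mem_map, forall_exists_index, and_imp, forall_apply_eq_imp_iff₂]
    intro v hv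
    refine sc_dom_of_pos_roots _ fun β hβ => ?_
    obtain ⟨γ, hγ⟩ := sc_frame_root u'.act ⟨u', rfl⟩ β
    rw [hγ]
    exact sc_nonneg_of_oneSign θ γ.vec (h γ) (by rw [← hγ]; exact hu' β hβ) v hv
  · rw [List.map_map]
    have : u.act ∘ u'.act = id := funext hu
    rw [this, List.map_id]

theorem sc_sort_A (θ : Shape n) (h : OneSignA θ) :
    ∃ (u : WD n) (θ' : Shape n), Ty.A.IsW u ∧ (∀ v ∈ θ', DomA v) ∧ θ = θ'.map u.act := by
  obtain ⟨u', hu'1, hu'⟩ := sc_extremal_A θ.sum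
  obtain ⟨u, hu1, hu, -⟩ := sc_WA_inv u' hu'1
  refine ⟨u, θ.map u'.act, hu1, ?_, ?_⟩
  · simp only [List.mem_map, forall_exists_index, and_imp, forall_apply_eq_imp_iff₂]
    intro v hv
    refine sc_domA_of_pos_roots _ fun β hβp hβ => ?_
    have hγ : ∀ x, dot β.vec (u'.act x) = dot (β.map u.toWB).vec x := fun x => by
      rw [sc_map_vec, sc_toWB_act, ← sc_dot_WD_act u β.vec (u'.act x), hu]
    have hγp : (β.map u.toWB).IsPerm := by
      unfold RootD.IsPerm RootD.map WD.toWB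
      simp only [hu1 _, Bool.false_bne]
      exact hβp
    rw [hγ]
    exact sc_nonneg_of_oneSign θ _ (h _ hγp) (by rw [← hγ]; exact hu' β hβp hβ) v hv
  · rw [List.map_map]
    have : u.act ∘ u'.act = id := funext hu
    rw [this, List.map_id]

end Sorting

section Inv

theorem sc_hasInt_act_lam_aux (u : WD n) (lam xi : Vec n) (θ : Shape n)
    (h : HasIntSchedule lam θ xi) : HasIntSchedule (u.act lam) θ xi := by
  obtain ⟨w0, l, hs, hi⟩ := h
  obtain ⟨w0', hw0'⟩ := sc_WD_mul u w0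
  have hfr : (⟨w0'.act, u.act lam⟩ : SwState n) = (⟨w0.act, lam⟩ : SwState n).mapB u.toWB := by
    have : w0'.act = fun x => u.act (w0.act x) := funext hw0'
    rw [this]
    rfl
  refine ⟨w0', mapSw u.toWB l, ⟨?_, ?_, ?_, ?_⟩, ?_⟩
  · exact (sc_mapSw_mem u.toWB l fun t => 0 ≤ t ∧ t ≤ (θ.length : ℝ)).2 hs.times_mem
  · exact (sc_mapSw_sorted u.toWB l).2 hs.sorted
  · rw [hfr]
    exact (sc_equiv_valid θ u.toWB _ l).2 hs.valid
  · obtain ⟨w, hw⟩ := hs.endpoint
    obtain ⟨w', hw'⟩ := sc_WD_mul u w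
    refine ⟨w', ?_⟩
    rw [hfr, sc_equiv_run, sc_equiv_pos, hw, hw']
    rfl
  · rw [hfr, sc_integral_iff_coeffs, sc_equiv_coeffs, ← sc_integral_iff_coeffs]
    exact hi

theorem sc_hasInt_act_lam (u : WD n) (lam xi : Vec n) (θ : Shape n) :
    HasIntSchedule (u.act lam) θ xi ↔ HasIntSchedule lam θ xi := by
  refine ⟨fun h => ?_, sc_hasInt_act_lam_aux u lam xi θ⟩
  obtain ⟨k, hk, -⟩ := sc_WD_inv u
  have := sc_hasInt_act_lam_aux k _ xi θ h
  rwa [hk] at this

theorem sc_isSchedule_act_xi (u : WD n) (lam xi : Vec n) (θ : Shape n) (w0 : WD n)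
    (l : List (ℝ × RootD n)) (h : IsSchedule lam θ xi w0 l) : IsSchedule lam θ (u.act xi) w0 l := by
  obtain ⟨h1, h2, h3, w, h4⟩ := h
  obtain ⟨k, hk, -⟩ := sc_WD_inv u
  obtain ⟨w', hw'⟩ := sc_WD_mul w k
  exact ⟨h1, h2, h3, w', by rw [hw', hk, h4]⟩

theorem sc_hasInt_act_xi (u : WD n) (lam xi : Vec n) (θ : Shape n) :
    HasIntSchedule lam θ (u.act xi) ↔ HasIntSchedule lam θ xi := by
  constructor
  · rintro ⟨w0, l, hs, hi⟩
    obtain ⟨k, hk, -⟩ := sc_WD_inv u
    have := sc_isSchedule_act_xi k lam _ θ w0 l hs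
    rw [hk] at this
    exact ⟨w0, l, this, hi⟩
  · rintro ⟨w0, l, hs, hi⟩
    exact ⟨w0, l, sc_isSchedule_act_xi u lam xi θ w0 l hs, hi⟩

/-- an integral raw schedule for any framing of the shape and any representative of the endpoint -/
theorem sc_hasInt_of_raw (lam xi : Vec n) (θ : Shape n) (u w : WD n) (l : List (ℝ × RootD n))
    (h : RawSched lam (θ.map u.act) (w.act xi) l)
    (hi : SwIntegral (θ.map u.act) ⟨id, lam⟩ l) : HasIntSchedule lam θ xi :=
  ⟨u, l, (sc_raw_iff lam xi θ u l).2 ⟨w, h⟩, (sc_raw_integral lam θ u l).2 hi⟩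

theorem sc_raw_of_hasInt (lam xi : Vec n) (θ : Shape n) (h : HasIntSchedule lam θ xi) :
    ∃ (u w : WD n) (l : List (ℝ × RootD n)), RawSched lam (θ.map u.act) (w.act xi) l ∧
      SwIntegral (θ.map u.act) ⟨id, lam⟩ l := by
  obtain ⟨w0, l, hs, hi⟩ := h
  obtain ⟨w, hw⟩ := (sc_raw_iff lam xi θ w0 l).1 hs
  exact ⟨w0, w, l, hw, (sc_raw_integral lam θ w0 l).1 hi⟩

theorem sc_raw_of_hasIntA (lam xi : Vec n) (θ : Shape n) (h : HasIntSched .A lam θ xi) :
    ∃ (u w : WD n) (l : List (ℝ × RootD n)), Ty.A.IsW u ∧ Ty.A.IsW w ∧ (∀ x ∈ l, x.2.IsPerm) ∧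
      RawSched lam (θ.map u.act) (w.act xi) l ∧ SwIntegral (θ.map u.act) ⟨id, lam⟩ l := by
  obtain ⟨w0, l, hs, hi⟩ := h
  obtain ⟨h0, h1, w, hw, hr⟩ := (sc_raw_iff_A lam xi θ w0 l).1 hs
  exact ⟨w0, w, l, h0, hw, h1, hr, (sc_raw_integral lam θ w0 l).1 hi⟩

end Inv

end Claimed.Agent.R282
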