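import Claimed.Agent.R282.Sched.Calc

/-!
# Row 282, schedule calculus A4: the simplifications after Def 2.1

Leaf L-SC-D1 = `sc_del_zero_total`, `sc_del_time_zero`, `sc_del_time_end`;
L-SC-D2 = `sc_del_zero_gap`; L-SC-D3 = `sc_strict_of_min`, `sc_simplify_integral`.

Proofs.  (a) zero total: `m = 0` (`sc_coeff_of_total_zero`) and `s_β f = f` on the face
(`sc_refl_frame_of_total_zero`), so the states before and after the switch are `FrameEq`.
(b) time `0`: `m = 0`, the new initial frame is `s_β w0` (`sc_WD_refl`, `sc_WD_mul`).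
(c) time `T`: `m = tot`, the final position does not change (`sc_pos_step`).
(d) zero gap: with `S₁ = S.step θ t β` one has `S = S₁.mapB (WB.ofRoot β)` because
`s_β (c - m β) = c - (c·β - m) β = c - G β`; equivariance; the endpoint is reflected (`sc_WD_refl`).
-/

set_option autoImplicit false

namespace Claimed.Agent.R282

variable {n : ℕ}

theorem sc_integral_iff_coeffs (θ : Shape n) (S : SwState n) (l : List (ℝ × RootD n)) :
    SwIntegral θ S l ↔ ∀ m ∈ swCoeffs θ S l, ∃ z : ℤ, m = z := by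
  induction l generalizing S with
  | nil => simp [SwIntegral, swCoeffs]
  | cons p l ih => simp [SwIntegral, swCoeffs, ih]

theorem sc_runSw_snoc (θ : Shape n) (S : SwState n) (l : List (ℝ × RootD n)) (t : ℝ)
    (β : RootD n) : runSw θ S (l ++ [(t, β)]) = (runSw θ S l).step θ t β := by
  rw [sc_runSw_append]
  rfl

theorem sc_sublist_mid {α : Type} (l₁ l₂ : List α) (a : α) :
    (l₁ ++ l₂).Sublist (l₁ ++ a :: l₂) :=
  List.Sublist.append_left (List.sublist_cons_self a l₂) l₁

/-- (a) delete a switch of zero total pairing -/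
theorem sc_del_zero_total (lam xi : Vec n) (θ : Shape n) (hθ : ∀ v ∈ θ, Dom v) (w0 : WD n)
    (l₁ l₂ : List (ℝ × RootD n)) (t : ℝ) (β : RootD n)
    (hs : IsSchedule lam θ xi w0 (l₁ ++ (t, β) :: l₂))
    (h0 : (runSw θ ⟨w0.act, lam⟩ l₁).total θ β = 0) :
    IsSchedule lam θ xi w0 (l₁ ++ l₂) ∧
      (runSw θ ⟨w0.act, lam⟩ l₁).coeff θ t β = 0 ∧
      swCoeffs θ ⟨w0.act, lam⟩ (l₁ ++ l₂) = swCoeffs θ ⟨w0.act, lam⟩ l₁ ++
        swCoeffs θ (runSw θ ⟨w0.act, lam⟩ (l₁ ++ [(t, β)])) l₂ := by
  have hfr : IsFrame (runSw θ ⟨w0.act, lam⟩ l₁).frame :=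
    sc_isFrame_runSw θ _ (sc_isFrame_act w0) l₁
  have hm : (runSw θ ⟨w0.act, lam⟩ l₁).coeff θ t β = 0 :=
    sc_coeff_of_total_zero θ hθ _ hfr β h0 t
  have hFE : FrameEq θ (runSw θ ⟨w0.act, lam⟩ l₁) ((runSw θ ⟨w0.act, lam⟩ l₁).step θ t β) := by
    refine ⟨?_, fun x hx => ?_⟩
    · simp only [SwState.step, hm, zero_smul, sub_zero]
    · exact (sc_refl_frame_of_total_zero θ _ hfr β h0 x hx).symm
  have hv := (sc_valid_append θ _ l₁ ((t, β) :: l₂)).1 hs.valid
  refine ⟨⟨fun p hp => hs.times_mem p ((sc_sublist_mid l₁ l₂ (t, β)).subset hp),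
    hs.sorted.sublist (sc_sublist_mid l₁ l₂ (t, β)), ?_, ?_⟩, hm, ?_⟩
  · exact (sc_valid_append θ _ l₁ l₂).2 ⟨hv.1, (sc_frameEq_valid θ hθ _ _ hFE l₂).2 hv.2.2.2⟩
  · obtain ⟨w, hw⟩ := hs.endpoint
    refine ⟨w, ?_⟩
    rw [← hw, sc_runSw_append, sc_runSw_append]
    exact sc_frameEq_pos θ hθ _ _ (sc_frameEq_run θ hθ _ _ hFE l₂) _
  · rw [sc_coeffs_append, sc_runSw_snoc, sc_frameEq_coeffs θ hθ _ _ hFE l₂]

/-- (b) absorb a first switch at time `0` into the initial frame -/
theorem sc_del_time_zero (lam xi : Vec n) (θ : Shape n) (w0 : WD n) (l : List (ℝ × RootD n))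
    (β : RootD n) (hs : IsSchedule lam θ xi w0 ((0, β) :: l)) :
    ∃ w0' : WD n, (∀ x, w0'.act x = refl β (w0.act x)) ∧ IsSchedule lam θ xi w0' l ∧
      (⟨w0.act, lam⟩ : SwState n).coeff θ 0 β = 0 ∧
      swCoeffs θ ⟨w0'.act, lam⟩ l
        = swCoeffs θ ((⟨w0.act, lam⟩ : SwState n).step θ 0 β) l := by
  obtain ⟨r, hr⟩ := sc_WD_refl β
  obtain ⟨w0', hw0'⟩ := sc_WD_mul r w0
  have hact : ∀ x, w0'.act x = refl β (w0.act x) := fun x => by rw [hw0', hr]
  have hm : (⟨w0.act, lam⟩ : SwState n).coeff θ 0 β = 0 :=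
    sc_coeff_zero θ _ (sc_isFrame_act w0) β
  have hst : (⟨w0.act, lam⟩ : SwState n).step θ 0 β = ⟨w0'.act, lam⟩ := by
    simp only [SwState.step, hm, zero_smul, sub_zero]
    congr 1
    funext x
    exact (hact x).symm
  refine ⟨w0', hact, ⟨fun p hp => hs.times_mem p (List.mem_cons_of_mem _ hp),
    (List.pairwise_cons.1 hs.sorted).2, ?_, ?_⟩, hm, by rw [hst]⟩
  · rw [← hst]
    exact hs.valid.2.2
  · obtain ⟨w, hw⟩ := hs.endpoint
    refine ⟨w, ?_⟩
    rw [← hw, ← hst]
    rfl

/-- (c) drop a last switch at time `T` -/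
theorem sc_del_time_end (lam xi : Vec n) (θ : Shape n) (w0 : WD n) (l : List (ℝ × RootD n))
    (β : RootD n) (hs : IsSchedule lam θ xi w0 (l ++ [((θ.length : ℝ), β)])) :
    IsSchedule lam θ xi w0 l := by
  refine ⟨fun p hp => hs.times_mem p (List.mem_append_left _ hp),
    (List.pairwise_append.1 hs.sorted).1, ((sc_valid_append θ _ l _).1 hs.valid).1, ?_⟩
  obtain ⟨w, hw⟩ := hs.endpoint
  refine ⟨w, ?_⟩
  rw [← hw, sc_runSw_snoc, sc_pos_step]

theorem sc_mapSw_fst (g : WB n) (l : List (ℝ × RootD n)) :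
    (mapSw g l).map Prod.fst = l.map Prod.fst := by
  simp [mapSw]

/-- the state before a switch of zero gap is the reflection of the state after it -/
theorem sc_state_of_zero_gap (θ : Shape n) (S : SwState n) (t : ℝ) (β : RootD n)
    (h0 : S.gap θ t β = 0) : (S.step θ t β).mapB (WB.ofRoot β) = S := by
  have hc : refl β (S.c - S.coeff θ t β • β.vec) = S.c := by
    have hg := sc_gap_eq θ S t β
    rw [h0] at hg
    unfold refl
    rw [sc_dot_sub_left, sc_dot_smul_left, sc_vec_dot_self]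
    have : dot S.c β.vec - S.coeff θ t β * 2 = - S.coeff θ t β := by linarith
    rw [this, neg_smul]
    abel
  cases S with
  | mk f c =>
    simp only [SwState.mapB, SwState.step, sc_ofRoot_act, sc_refl_refl] at hc ⊢
    rw [hc]

/-- (d) delete a switch of zero gap and reflect the suffix -/
theorem sc_del_zero_gap (lam xi : Vec n) (θ : Shape n) (w0 : WD n)
    (l₁ l₂ : List (ℝ × RootD n)) (t : ℝ) (β : RootD n)
    (hs : IsSchedule lam θ xi w0 (l₁ ++ (t, β) :: l₂))
    (h0 : (runSw θ ⟨w0.act, lam⟩ l₁).gap θ t β = 0) :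
    IsSchedule lam θ xi w0 (l₁ ++ mapSw (WB.ofRoot β) l₂) ∧
      swCoeffs θ ⟨w0.act, lam⟩ (l₁ ++ mapSw (WB.ofRoot β) l₂) = swCoeffs θ ⟨w0.act, lam⟩ l₁ ++
        swCoeffs θ (runSw θ ⟨w0.act, lam⟩ (l₁ ++ [(t, β)])) l₂ := by
  have hS := sc_state_of_zero_gap θ _ t β h0
  have hv := (sc_valid_append θ _ l₁ ((t, β) :: l₂)).1 hs.valid
  have hfst : (l₁ ++ mapSw (WB.ofRoot β) l₂).map Prod.fst = (l₁ ++ l₂).map Prod.fst := by
    rw [List.map_append, List.map_append, sc_mapSw_fst]
  refine ⟨⟨?_, ?_, ?_, ?_⟩, ?_⟩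
  · intro p hp
    have h1 : p.1 ∈ (l₁ ++ l₂).map Prod.fst := hfst ▸ List.mem_map_of_mem hp
    obtain ⟨q, hq, hqp⟩ := List.mem_map.1 h1
    rw [← hqp]
    exact hs.times_mem q ((sc_sublist_mid l₁ l₂ (t, β)).subset hq)
  · have h1 : ((l₁ ++ l₂).map Prod.fst).Pairwise (· ≤ ·) :=
      List.pairwise_map.2 (hs.sorted.sublist (sc_sublist_mid l₁ l₂ (t, β)))
    rw [← hfst] at h1
    exact List.pairwise_map.1 h1
  · refine (sc_valid_append θ _ l₁ _).2 ⟨hv.1, ?_⟩
    rw [← hS]
    exact (sc_equiv_valid θ _ _ l₂).2 hv.2.2.2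
  · obtain ⟨w, hw⟩ := hs.endpoint
    obtain ⟨r, hr⟩ := sc_WD_refl β
    obtain ⟨w', hw'⟩ := sc_WD_mul r w
    refine ⟨w', ?_⟩
    rw [sc_runSw_append] at hw ⊢
    rw [← hS, sc_equiv_run, sc_equiv_pos, sc_ofRoot_act, hw', hr, ← hw]
    rfl
  · rw [sc_coeffs_append, sc_runSw_snoc]
    congr 1
    conv_lhs => rw [← hS]
    exact sc_equiv_coeffs θ _ _ l₂

theorem sc_root_ext (β γ : RootD n) (hi : β.i = γ.i) (hj : β.j = γ.j) (hv : β.vec = γ.vec) :
    β = γ := by
  have hsg : ∀ a b : Bool, sgnB a = sgnB b → a = b := by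
    intro a b h
    cases a <;> cases b <;> simp [sgnB] at h ⊢ <;> norm_num at h
  cases β with
  | mk i j ne si sj =>
    cases γ with
    | mk i' j' ne' si' sj' =>
      simp only at hi hj
      subst hi hj
      have h1 := congrFun hv i
      have h2 := congrFun hv j
      simp only [RootD.vec, if_true, if_neg ne, if_neg ne.symm, add_zero, zero_add] at h1 h2
      rw [hsg _ _ h1, hsg _ _ h2]

/-- reflections of roots are equivariant (as structures) -/
theorem sc_reflRoot_reflRoot (β γ δ : RootD n) :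
    reflRoot (reflRoot β γ) (reflRoot β δ) = reflRoot β (reflRoot γ δ) := by
  apply sc_root_ext
  · simp only [reflRoot, RootD.map, WB.ofRoot]
    rw [Equiv.swap_apply_apply]
    simp
  · simp only [reflRoot, RootD.map, WB.ofRoot]
    rw [Equiv.swap_apply_apply]
    simp
  · rw [sc_reflRoot_vec, sc_reflRoot_vec, sc_reflRoot_vec, sc_reflRoot_vec]
    have := sc_refl_map (WB.ofRoot β) γ δ.vec
    rw [sc_ofRoot_act, sc_ofRoot_act] at this
    exact this

theorem sc_velRoots_map (β : RootD n) (l : List (RootD n)) :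
    velRoots (l.map (reflRoot β)) = (velRoots l).map (reflRoot β) := by
  induction l with
  | nil => rfl
  | cons γ l ih =>
    simp only [List.map_cons, velRoots, ih, List.map_map]
    congr 1
    apply List.map_congr_left
    intro δ _
    exact sc_reflRoot_reflRoot β γ δ

/-- in (d) the velocity roots are the old ones with one deleted -/
theorem sc_del_zero_gap_vel (l₁ l₂ : List (RootD n)) (β : RootD n) :
    velRoots (l₁ ++ l₂.map (reflRoot β))
      = (velRoots (l₁ ++ β :: l₂)).eraseIdx l₁.length := by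
  induction l₁ with
  | nil => simp [velRoots, sc_velRoots_map]
  | cons α l₁ ih =>
    simp only [List.cons_append, velRoots, List.length_cons, List.eraseIdx_cons_succ, ih,
      List.eraseIdx_map]

/-- all switches strict -/
def SwStrict (θ : Shape n) (S : SwState n) (l : List (ℝ × RootD n)) : Prop :=
  (∀ p ∈ l, 0 < p.1 ∧ p.1 < (θ.length : ℝ)) ∧ (∀ g ∈ swGaps θ S l, 0 < g) ∧
    ∀ a ∈ swTotals θ S l, 0 < a

theorem sc_integral_of_split (θ : Shape n) (S : SwState n) (l₁ l₂ l' : List (ℝ × RootD n))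
    (t : ℝ) (β : RootD n)
    (hco : swCoeffs θ S l' = swCoeffs θ S l₁ ++ swCoeffs θ (runSw θ S (l₁ ++ [(t, β)])) l₂)
    (hi : SwIntegral θ S (l₁ ++ (t, β) :: l₂)) : SwIntegral θ S l' := by
  rw [sc_integral_iff_coeffs] at hi ⊢
  rw [hco, sc_runSw_snoc]
  rw [sc_coeffs_append] at hi
  intro m hm
  apply hi m
  rcases List.mem_append.1 hm with hm | hm
  · exact List.mem_append_left _ hm
  · exact List.mem_append_right _ (List.mem_cons_of_mem _ hm)

theorem sc_split_at (l : List (ℝ × RootD n)) (i : ℕ) (hi : i < l.length) :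
    l = l.take i ++ (l[i].1, l[i].2) :: l.drop (i + 1) := by
  conv_lhs => rw [← List.take_append_drop i l, List.drop_eq_getElem_cons hi]

/-- a schedule that is not strict can be shortened, preserving integrality -/
theorem sc_shorten (lam xi : Vec n) (θ : Shape n) (hθ : ∀ v ∈ θ, Dom v) (w0 : WD n)
    (l : List (ℝ × RootD n)) (hs : IsSchedule lam θ xi w0 l)
    (hns : ¬ SwStrict θ ⟨w0.act, lam⟩ l) :
    ∃ w0' l', IsSchedule lam θ xi w0' l' ∧ l'.length < l.length ∧
      (SwIntegral θ ⟨w0.act, lam⟩ l → SwIntegral θ ⟨w0'.act, lam⟩ l') := by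
  have hval := (sc_valid_iff θ _ l).1 hs.valid
  by_cases hA : ∀ p ∈ l, 0 < p.1 ∧ p.1 < (θ.length : ℝ)
  · by_cases hB : ∀ g ∈ swGaps θ ⟨w0.act, lam⟩ l, 0 < g
    · -- a zero total
      have hC : ¬ ∀ a ∈ swTotals θ ⟨w0.act, lam⟩ l, 0 < a := fun hC => hns ⟨hA, hB, hC⟩
      push Not at hC
      obtain ⟨a, ha, ha0⟩ := hC
      obtain ⟨i, hi, rfl⟩ := List.mem_iff_getElem.1 ha
      have hi' : i < l.length := by rwa [sc_totals_length] at hi
      have h0 : (runSw θ ⟨w0.act, lam⟩ (l.take i)).total θ l[i].2 = 0 := by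
        have h1 := sc_totals_get θ ⟨w0.act, lam⟩ l i hi'
        rw [List.getD_eq_getElem _ _ hi] at h1
        have h2 := hval.2 _ ha
        have : (stAt θ ⟨w0.act, lam⟩ l i).total θ l[i].2 = 0 := by rw [← h1]; linarith
        exact this
      have hsplit := sc_split_at l i hi'
      have hs' := hs
      rw [hsplit] at hs'
      obtain ⟨e1, -, e3⟩ := sc_del_zero_total lam xi θ hθ w0 _ _ _ _ hs' h0
      refine ⟨w0, _, e1, ?_, fun hint => ?_⟩
      · simp only [List.length_append, List.length_take, List.length_drop]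
        omega
      · rw [hsplit] at hint
        exact sc_integral_of_split θ _ _ _ _ _ _ e3 hint
    · -- a zero gap
      push Not at hB
      obtain ⟨a, ha, ha0⟩ := hB
      obtain ⟨i, hi, rfl⟩ := List.mem_iff_getElem.1 ha
      have hi' : i < l.length := by rwa [sc_gaps_length] at hi
      have h0 : (runSw θ ⟨w0.act, lam⟩ (l.take i)).gap θ l[i].1 l[i].2 = 0 := by
        have h1 := sc_gaps_get θ ⟨w0.act, lam⟩ l i hi'
        rw [List.getD_eq_getElem _ _ hi] at h1
        have h2 := hval.1 _ ha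
        have : (stAt θ ⟨w0.act, lam⟩ l i).gap θ l[i].1 l[i].2 = 0 := by rw [← h1]; linarith
        exact this
      have hsplit := sc_split_at l i hi'
      have hs' := hs
      rw [hsplit] at hs'
      obtain ⟨e1, e3⟩ := sc_del_zero_gap lam xi θ w0 _ _ _ _ hs' h0
      refine ⟨w0, _, e1, ?_, fun hint => ?_⟩
      · simp only [List.length_append, List.length_take, List.length_drop, mapSw, List.length_map]
        omega
      · rw [hsplit] at hint
        exact sc_integral_of_split θ _ _ _ _ _ _ e3 hint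
  · -- a switch at an end point
    push Not at hA
    obtain ⟨p, hp, hp0⟩ := hA
    have hpt := hs.times_mem p hp
    by_cases hp1 : 0 < p.1
    · -- time `T`
      have hpT : p.1 = (θ.length : ℝ) := le_antisymm hpt.2 (hp0 hp1)
      have hne : l ≠ [] := List.ne_nil_of_mem hp
      have hsplit : l = l.dropLast ++ [((θ.length : ℝ), (l.getLast hne).2)] := by
        have hq : (l.getLast hne).1 = (θ.length : ℝ) := by
          apply le_antisymm (hs.times_mem _ (List.getLast_mem hne)).2
          rw [← hpT]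
          have h1 := hs.sorted
          rw [← List.dropLast_append_getLast hne] at h1 hp
          rcases List.mem_append.1 hp with hp' | hp'
          · exact (List.pairwise_append.1 h1).2.2 p hp' _ (by simp)
          · rw [List.mem_singleton.1 hp']
        conv_lhs => rw [← List.dropLast_append_getLast hne]
        rw [← hq]
      have hs' := hs
      rw [hsplit] at hs'
      refine ⟨w0, l.dropLast, sc_del_time_end lam xi θ w0 _ _ hs', ?_, fun hint => ?_⟩
      · rw [List.length_dropLast]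
        have := List.length_pos_iff.2 hne
        omega
      · rw [hsplit] at hint
        exact ((sc_integral_append θ _ _ _).1 hint).1
    · -- time `0`
      have hp00 : p.1 = 0 := le_antisymm (not_lt.1 hp1) hpt.1
      cases l with
      | nil => simp at hp
      | cons q l' =>
        have hq : q.1 = 0 := by
          apply le_antisymm _ (hs.times_mem q (by simp)).1
          rw [← hp00]
          rcases List.mem_cons.1 hp with rfl | hp'
          · exact le_rfl
          · exact (List.pairwise_cons.1 hs.sorted).1 p hp'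
        have hq' : q = (0, q.2) := Prod.ext hq rfl
        have hs' := hs
        rw [hq'] at hs'
        obtain ⟨w0', -, e1, -, e3⟩ := sc_del_time_zero lam xi θ w0 l' q.2 hs'
        refine ⟨w0', l', e1, by simp, fun hint => ?_⟩
        rw [hq'] at hint
        rw [sc_integral_iff_coeffs, e3, ← sc_integral_iff_coeffs]
        exact hint.2

/-- a schedule that cannot be shortened is strict -/
theorem sc_strict_of_min (lam xi : Vec n) (θ : Shape n) (hθ : ∀ v ∈ θ, Dom v) (w0 : WD n)
    (l : List (ℝ × RootD n)) (hs : IsSchedule lam θ xi w0 l)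
    (hmin : ∀ w0' l', IsSchedule lam θ xi w0' l' → l.length ≤ l'.length) :
    SwStrict θ ⟨w0.act, lam⟩ l := by
  by_contra hns
  obtain ⟨w0', l', hs', hlt, -⟩ := sc_shorten lam xi θ hθ w0 l hs hns
  have := hmin w0' l' hs'
  omega

/-- an integral schedule can be made strict -/
theorem sc_simplify_integral (lam xi : Vec n) (θ : Shape n) (hθ : ∀ v ∈ θ, Dom v)
    (h : HasIntSchedule lam θ xi) :
    ∃ w0 l, IsSchedule lam θ xi w0 l ∧ SwIntegral θ ⟨w0.act, lam⟩ l ∧
      SwStrict θ ⟨w0.act, lam⟩ l := by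
  obtain ⟨w0, l, hs, hi⟩ := h
  induction hN : l.length using Nat.strong_induction_on generalizing w0 l with
  | _ N ih =>
    by_cases hst : SwStrict θ ⟨w0.act, lam⟩ l
    · exact ⟨w0, l, hs, hi, hst⟩
    · obtain ⟨w0', l', hs', hlt, hi'⟩ := sc_shorten lam xi θ hθ w0 l hs hst
      exact ih l'.length (hN ▸ hlt) w0' l' hs' (hi' hi) rfl

end Claimed.Agent.R282
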